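import Mathlib

/-!
Lattices in locally compact groups and connected simply connected solvable real Lie groups.
-/

open MeasureTheory
open scoped Manifold ContDiff

universe w

namespace Vale.Agent.N188

/-- A lattice: a discrete subgroup of finite covolume, that is, with a fundamental domain of
finite Haar measure for its action by left translations (Borel sets, left Haar measure). -/
def IsLattice {G : Type*} [Group G] [TopologicalSpace G] (Λ : Subgroup G) : Prop :=
  DiscreteTopology Λ ∧
    letI : MeasurableSpace G := borel G
    ∃ μ : Measure G, μ.IsHaarMeasure ∧ ∃ F : Set G, IsFundamentalDomain Λ F μ ∧ μ F < ⊤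

/-- A uniform lattice: a lattice with compact quotient. -/
def IsUniformLattice {G : Type*} [Group G] [TopologicalSpace G] (Λ : Subgroup G) : Prop :=
  IsLattice Λ ∧ CompactSpace (G ⧸ Λ)

/-- A connected simply connected solvable real Lie group of finite dimension `n`. -/
structure SolvableLieGroup where
  carrier : Type w
  n : ℕ
  [group : Group carrier]
  [top : TopologicalSpace carrier]
  [t2 : T2Space carrier]
  [secondCountable : SecondCountableTopology carrier]
  [charted : ChartedSpace (EuclideanSpace ℝ (Fin n)) carrier]
  [lie : LieGroup (𝓡 n) ∞ carrier]
  [connected : ConnectedSpace carrier]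
  [simplyConnected : SimplyConnectedSpace carrier]
  [solvable : Group.IsSolvable carrier]

attribute [instance] SolvableLieGroup.group SolvableLieGroup.top SolvableLieGroup.t2
  SolvableLieGroup.secondCountable SolvableLieGroup.charted SolvableLieGroup.lie
  SolvableLieGroup.connected SolvableLieGroup.simplyConnected SolvableLieGroup.solvable

end Vale.Agent.N188
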