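import Vale.Agent.P188.H796.Lh
import Vale.Agent.N188.Defs

/-!
A simply connected solvable Lie group built from a real Malcev completion and commuting flows.
-/

set_option linter.unusedSectionVars false

open scoped Manifold ContDiff

universe u

namespace Vale.Agent.N188

open Vale.Agent.P188 Vale.Agent.P188.H796

section Co

variable {X : Type*} {A : Type*} [Ring A] [Algebra ℝ A] {S : Subalgebra ℝ (X → ℝ)}

/-- all linear coordinates of `F` lie in `S` -/
def Co (S : Subalgebra ℝ (X → ℝ)) (F : X → A) : Prop :=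
  ∀ φ : A →ₗ[ℝ] ℝ, (fun x => φ (F x)) ∈ S

theorem Co.const (a : A) : Co S (fun _ => a) := fun φ => S.algebraMap_mem (φ a)

theorem Co.sub {F F' : X → A} (h : Co S F) (h' : Co S F') : Co S (fun x => F x - F' x) :=
  fun φ => by
    simp only [map_sub]
    exact S.sub_mem (h φ) (h' φ)

theorem Co.smul {f : X → ℝ} (hf : f ∈ S) (a : A) : Co S (fun x => f x • a) := fun φ => by
  simp only [map_smul, smul_eq_mul]
  exact S.mul_mem hf (S.algebraMap_mem (φ a))

theorem Co.sum {ι : Type*} (s : Finset ι) {F : ι → X → A} (h : ∀ i ∈ s, Co S (F i)) :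
    Co S (fun x => ∑ i ∈ s, F i x) := fun φ => by
  have : (fun x => φ (∑ i ∈ s, F i x)) = ∑ i ∈ s, fun x => φ (F i x) := by
    funext x; simp
  rw [this]
  exact S.sum_mem fun i hi => h i hi φ

theorem Co.mul [FiniteDimensional ℝ A] {F F' : X → A} (h : Co S F) (h' : Co S F') :
    Co S (fun x => F x * F' x) := fun φ => by
  let b := Module.finBasis ℝ A
  have : (fun x => φ (F x * F' x)) = ∑ i, (fun x => b.coord i (F x)) *
      fun x => (φ ∘ₗ LinearMap.mulLeft ℝ (b i)) (F' x) := by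
    funext x
    have e : φ (F x * F' x) = φ ((∑ i, b.repr (F x) i • b i) * F' x) := by rw [b.sum_repr]
    rw [e, Finset.sum_mul, map_sum, Finset.sum_apply]
    simp
  rw [this]
  exact S.sum_mem fun i _ => S.mul_mem (h _) (h' _)

theorem bc_mem {f : X → ℝ} (hf : f ∈ S) (k : ℕ) : (fun x => bc k (f x)) ∈ S := by
  induction k with
  | zero =>
    simp only [bc_zero]
    exact S.one_mem
  | succ k ih =>
    simp only [bc_succ, div_eq_mul_inv]
    exact S.mul_mem ih (S.mul_mem (S.sub_mem hf (S.algebraMap_mem (k : ℝ)))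
      (S.algebraMap_mem ((k : ℝ) + 1)⁻¹))

theorem Co.rp {f : X → ℝ} (hf : f ∈ S) (m : ℕ) (u : A) : Co S (fun x => rp m u (f x)) :=
  Co.sum _ fun k _ => Co.smul (bc_mem hf k) _

/-- the same for units and their inverses -/
def CoU (S : Subalgebra ℝ (X → ℝ)) (w : X → Aˣ) : Prop :=
  Co S (fun x => (w x : A)) ∧ Co S (fun x => (((w x)⁻¹ : Aˣ) : A))

theorem CoU.const (a : Aˣ) : CoU S (fun _ => a) := ⟨Co.const _, Co.const _⟩

theorem CoU.inv {w : X → Aˣ} (h : CoU S w) : CoU S (fun x => (w x)⁻¹) :=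
  ⟨h.2, by simpa using h.1⟩

variable [FiniteDimensional ℝ A]

theorem CoU.mul {w w' : X → Aˣ} (h : CoU S w) (h' : CoU S w') : CoU S (fun x => w x * w' x) :=
  ⟨by simpa using h.1.mul h'.1, by simpa using h'.2.mul h.2⟩

theorem CoU.ofFn {d : ℕ} {w : Fin d → X → Aˣ} (h : ∀ i, CoU S (w i)) :
    CoU S (fun x => (List.ofFn fun i => w i x).prod) := by
  have key : ∀ L : List (Fin d), CoU S (fun x => (L.map fun i => w i x).prod) := by
    intro L
    induction L with
    | nil => simpa using CoU.const (S := S) (1 : Aˣ)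
    | cons i L ih => simpa using (h i).mul ih
  simpa [List.ofFn_eq_map] using key (List.finRange d)

theorem CoU.EU {N : Type u} [Group N] {d n : ℕ} {D : MB N d n} (R : RD D A)
    {s : X → Fin d → ℝ} (h : ∀ i, (fun x => s x i) ∈ S) : CoU S (fun x => R.EU (s x)) :=
  CoU.ofFn fun i => ⟨Co.rp (h i) _ _, Co.rp (S.neg_mem (h i)) _ _⟩

end Co

/-- smooth functions -/
def smoothS (X : Type*) [NormedAddCommGroup X] [NormedSpace ℝ X] : Subalgebra ℝ (X → ℝ) where
  carrier := {f | ContDiff ℝ ∞ f}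
  mul_mem' := fun {a b} (ha : ContDiff ℝ ∞ a) (hb : ContDiff ℝ ∞ b) => ha.mul hb
  add_mem' := fun {a b} (ha : ContDiff ℝ ∞ a) (hb : ContDiff ℝ ∞ b) => ha.add hb
  algebraMap_mem' := fun c => (contDiff_const : ContDiff ℝ ∞ fun _ : X => c)

theorem mem_smoothS {X : Type*} [NormedAddCommGroup X] [NormedSpace ℝ X] {f : X → ℝ} :
    f ∈ smoothS X ↔ ContDiff ℝ ∞ f := Iff.rfl

theorem prod_comm_mul {Q ι : Type*} [Monoid Q] (f g : ι → Q) (h : ∀ i j, Commute (f i) (g j))
    (L : List ι) : (L.map f).prod * (L.map g).prod = (L.map fun i => f i * g i).prod := by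
  induction L with
  | nil => simp
  | cons a L ih =>
    have h1 : Commute (L.map f).prod (g a) := Commute.list_prod_left _ _ fun x hx => by
      obtain ⟨i, -, rfl⟩ := List.mem_map.1 hx
      exact h i a
    simp only [List.map_cons, List.prod_cons]
    rw [← ih, mul_assoc, ← mul_assoc (L.map f).prod, h1.eq]
    simp only [mul_assoc]

variable {N : Type u} [Group N] {d n : ℕ} {D : MB N d n} {A : Type} [Ring A] [Algebra ℝ A]
  [FiniteDimensional ℝ A]

theorem solvable_NR (R : RD D A) : Group.IsSolvable R.NR := by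
  have hJ : ∀ a : ℕ, ∀ v ∈ R.J ^ (a + 1), ∀ w ∈ R.J, v * w ∈ R.J ^ (a + 1) := by
    intro a v hv w hw
    have h1 : R.J ^ (a + 1) * R.J ≤ R.J ^ (a + 1) := by
      rw [pow_succ, mul_assoc]
      exact mul_le_mul_right (Submodule.mul_le.2 fun x hx y hy => R.J_mul hx hy) _
    exact h1 (Submodule.mul_mem_mul hv hw)
  have hE : ∀ a : ℕ, ∀ v ∈ R.J ^ (a + 1), ∀ s : R.NR, v * R.toA s ∈ R.J ^ (a + 1) := by
    intro a v hv s
    have e : v * R.toA s = v * (R.toA s - 1) + v := by noncomm_ring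
    rw [e]
    exact Submodule.add_mem _ (hJ a v hv _ (R.E_sub_one_mem s)) hv
  let P : ℕ → Subgroup R.NR := fun a =>
    { carrier := {s | R.toA s - 1 ∈ R.J ^ (a + 1)}
      one_mem' := by simp
      mul_mem' := fun {s t} hs ht => by
        have e : R.toA (s * t) - 1 = (R.toA s - 1) * R.toA t + (R.toA t - 1) := by
          rw [map_mul]; noncomm_ring
        show R.toA (s * t) - 1 ∈ R.J ^ (a + 1)
        rw [e]
        exact Submodule.add_mem _ (hE a _ hs t) ht
      inv_mem' := fun {s} hs => by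
        have e : R.toA s⁻¹ - 1 = -((R.toA s - 1) * R.toA s⁻¹) := by
          rw [sub_mul, ← map_mul, mul_inv_cancel, map_one]; noncomm_ring
        show R.toA s⁻¹ - 1 ∈ R.J ^ (a + 1)
        rw [e]
        exact Submodule.neg_mem _ (hE a _ hs _) }
  have key : ∀ a, derivedSeries R.NR a ≤ P a := by
    intro a
    induction a with
    | zero =>
      intro s _
      show R.toA s - 1 ∈ R.J ^ (0 + 1)
      rw [zero_add, pow_one]
      exact R.E_sub_one_mem s
    | succ a ih =>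
      rw [derivedSeries_succ, Subgroup.commutator_le]
      intro s hs t ht
      have e : R.toA (s * t * s⁻¹ * t⁻¹) - 1 = ((R.toA s - 1) * (R.toA t - 1) -
          (R.toA t - 1) * (R.toA s - 1)) * R.toA (s⁻¹ * t⁻¹) := by
        have e1 : R.toA t * R.toA s * R.toA (s⁻¹ * t⁻¹) = 1 := by
          rw [← map_mul, ← map_mul, ← map_one R.toA]; congr 1; group
        have e2 : R.toA (s * t * s⁻¹ * t⁻¹) = R.toA s * R.toA t * R.toA (s⁻¹ * t⁻¹) := by
          rw [← map_mul, ← map_mul, mul_assoc]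
        rw [e2, ← e1]
        nth_rewrite 2 3 4 5 [e1]
        noncomm_ring
      show R.toA (s * t * s⁻¹ * t⁻¹) - 1 ∈ R.J ^ (a + 1 + 1)
      rw [e]
      refine hE _ _ (Submodule.sub_mem _ ?_ ?_) _
      · rw [pow_succ]; exact Submodule.mul_mem_mul (ih hs) (R.E_sub_one_mem t)
      · rw [pow_succ]; exact Submodule.mul_mem_mul (ih ht) (R.E_sub_one_mem s)
  refine ⟨⟨R.m, ?_⟩⟩
  rw [eq_bot_iff]
  intro s hs
  have h1 : R.toA s - 1 ∈ R.J ^ (R.m + 1) := key _ hs
  rw [pow_succ, R.J_pow, Submodule.bot_mul, Submodule.mem_bot, sub_eq_zero] at h1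
  exact R.toA_inj (h1.trans (map_one _).symm)

/-- the real group inside the units -/
noncomputable def EUh (R : RD D A) : R.NR →* Aˣ := ⟨⟨R.EU, R.EU_zero⟩, R.EU_mul⟩

theorem mem_range_iff (R : RD D A) (a : Aˣ) :
    a ∈ (EUh R).range ↔ R.E (fun i => R.ℓ i a) = a :=
  ⟨fun ⟨s, hs⟩ => R.E_of_range ⟨s, congrArg Units.val hs⟩, fun h => ⟨_, Units.ext h⟩⟩

/-- smooth flows which normalise the real group and commute modulo it -/
structure Flow (R : RD D A) (k : ℕ) where
  γ : Fin k → ℝ → Aˣ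
  add : ∀ i x y, γ i (x + y) = γ i x * γ i y
  smooth : ∀ i, Co (smoothS ℝ) fun x => (γ i x : A)
  norm : ∀ i x, ∀ a ∈ (EUh R).range, γ i x * a * (γ i x)⁻¹ ∈ (EUh R).range
  comm : ∀ i j x y, γ i x * γ j y * (γ i x)⁻¹ * (γ j y)⁻¹ ∈ (EUh R).range

namespace Flow

variable {R : RD D A} {k : ℕ} (Φ : Flow R k)

theorem zero (i : Fin k) : Φ.γ i 0 = 1 := by
  have := Φ.add i 0 0
  rw [add_zero] at this
  simpa using this

theorem neg (i : Fin k) (x : ℝ) : Φ.γ i (-x) = (Φ.γ i x)⁻¹ := by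
  rw [eq_inv_iff_mul_eq_one, ← Φ.add, neg_add_cancel, Φ.zero]

/-- ordered product of the flows -/
def pr (x : Fin k → ℝ) : Aˣ := (List.ofFn fun i => Φ.γ i (x i)).prod

theorem pr_zero : Φ.pr 0 = 1 := by simp [pr, Φ.zero]

theorem γ_mem (i : Fin k) (x : ℝ) :
    Φ.γ i x ∈ Subgroup.normalizer ((EUh R).range : Set Aˣ) := by
  rw [Subgroup.mem_normalizer_iff]
  refine fun a => ⟨Φ.norm i x a, fun h => ?_⟩
  have := Φ.norm i (-x) _ h
  rw [Φ.neg] at this
  simpa [mul_assoc] using this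

theorem pr_mem (x : Fin k → ℝ) : Φ.pr x ∈ Subgroup.normalizer ((EUh R).range : Set Aˣ) :=
  Subgroup.list_prod_mem _ fun a ha => by
    obtain ⟨i, rfl⟩ := List.mem_ofFn.1 ha
    exact Φ.γ_mem i _

theorem pr_conj (x : Fin k → ℝ) {a : Aˣ} (ha : a ∈ (EUh R).range) :
    (Φ.pr x)⁻¹ * a * Φ.pr x ∈ (EUh R).range := by
  have := (Subgroup.mem_normalizer_iff.1 (inv_mem (Φ.pr_mem x)) a).1 ha
  rwa [inv_inv] at this

theorem pr_add (x y : Fin k → ℝ) : (Φ.pr (x + y))⁻¹ * (Φ.pr x * Φ.pr y) ∈ (EUh R).range := by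
  let T := Subgroup.normalizer ((EUh R).range : Set Aˣ)
  let π : T →* T ⧸ (EUh R).range.subgroupOf T := QuotientGroup.mk' _
  let g : Fin k → ℝ → T := fun i x => ⟨Φ.γ i x, Φ.γ_mem i x⟩
  have h1 : ∀ x : Fin k → ℝ, π ⟨Φ.pr x, Φ.pr_mem x⟩ =
      ((List.finRange k).map fun i => π (g i (x i))).prod := by
    intro x
    have e : (⟨Φ.pr x, Φ.pr_mem x⟩ : T) = ((List.finRange k).map fun i => g i (x i)).prod := by
      apply Subtype.ext
      rw [Subgroup.val_list_prod, List.map_map]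
      simp only [pr, List.ofFn_eq_map]
      rfl
    rw [e, map_list_prod, List.map_map]
    rfl
  have h2 : π ⟨Φ.pr (x + y), Φ.pr_mem _⟩ = π (⟨Φ.pr x, Φ.pr_mem x⟩ * ⟨Φ.pr y, Φ.pr_mem y⟩) := by
    rw [map_mul, h1, h1, h1, prod_comm_mul]
    · congr 2
      funext i
      rw [← map_mul]
      congr 1
      exact Subtype.ext (Φ.add i _ _)
    · intro i j
      rw [commute_iff_eq, ← map_mul, ← map_mul]
      refine QuotientGroup.eq.2 ?_
      have := Φ.comm j i (-(y j)) (-(x i))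
      rw [Φ.neg, Φ.neg] at this
      show (Φ.γ i (x i) * Φ.γ j (y j))⁻¹ * (Φ.γ j (y j) * Φ.γ i (x i)) ∈ (EUh R).range
      simpa only [mul_inv_rev, inv_inv, mul_assoc] using this
  exact (QuotientGroup.eq (s := (EUh R).range.subgroupOf T)).1 h2

theorem CoU_pr {X : Type*} [NormedAddCommGroup X] [NormedSpace ℝ X] {x : X → Fin k → ℝ}
    (hx : ContDiff ℝ ∞ x) : CoU (smoothS X) fun p => Φ.pr (x p) :=
  CoU.ofFn fun i => ⟨fun φ => (mem_smoothS.1 (Φ.smooth i φ)).comp (contDiff_pi.1 hx i),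
    fun φ => by
      simp only [← Φ.neg]
      exact (mem_smoothS.1 (Φ.smooth i φ)).comp (contDiff_pi.1 hx i).neg⟩

end Flow

end Vale.Agent.N188
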