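import Vale.Agent.N188.BuildA

/-!
The Lie group attached to a family of flows.
-/

set_option linter.unusedSectionVars false

open scoped Manifold ContDiff

universe u

namespace Vale.Agent.N188

open Vale.Agent.P188 Vale.Agent.P188.H796

variable {N : Type u} [Group N] {d n : ℕ} {D : MB N d n} {A : Type} [Ring A] [Algebra ℝ A]
  [FiniteDimensional ℝ A]

/-- linear coordinates -/
noncomputable def ee (d k : ℕ) :
    EuclideanSpace ℝ (Fin (d + k)) ≃L[ℝ] (Fin d → ℝ) × (Fin k → ℝ) :=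
  ContinuousLinearEquiv.ofFinrankEq (by simp)

namespace Flow

variable {R : RD D A} {k : ℕ} (Φ : Flow R k)

/-- the unit attached to a point -/
noncomputable def θ (p : EuclideanSpace ℝ (Fin (d + k))) : Aˣ :=
  Φ.pr (ee d k p).2 * R.EU (ee d k p).1

/-- the point attached to a unit and a value of the abelian coordinates -/
noncomputable def mk' (a : Aˣ) (y : Fin k → ℝ) : EuclideanSpace ℝ (Fin (d + k)) :=
  (ee d k).symm (fun i => R.ℓ i (((Φ.pr y)⁻¹ * a : Aˣ) : A), y)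

theorem x_mk (a : Aˣ) (y : Fin k → ℝ) : (ee d k (Φ.mk' a y)).2 = y := by simp [mk']

theorem θ_mk {a : Aˣ} {y : Fin k → ℝ} (h : (Φ.pr y)⁻¹ * a ∈ (EUh R).range) :
    Φ.θ (Φ.mk' a y) = a := by
  have h1 : R.EU (fun i => R.ℓ i (((Φ.pr y)⁻¹ * a : Aˣ) : A)) = (Φ.pr y)⁻¹ * a :=
    Units.ext ((mem_range_iff R _).1 h)
  rw [θ, mk', ContinuousLinearEquiv.apply_symm_apply]
  simp only
  rw [h1, mul_inv_cancel_left]

theorem ext' {p q : EuclideanSpace ℝ (Fin (d + k))} (h1 : Φ.θ p = Φ.θ q)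
    (h2 : (ee d k p).2 = (ee d k q).2) : p = q := by
  rw [θ, θ, h2, mul_right_inj] at h1
  exact (ee d k).injective (Prod.ext (R.EU_injective h1) h2)

theorem θ_zero : Φ.θ 0 = 1 := by
  rw [θ, map_zero, Prod.snd_zero, Prod.fst_zero, Φ.pr_zero, R.EU_zero, one_mul]

/-- multiplication -/
noncomputable def mul (p q : EuclideanSpace ℝ (Fin (d + k))) : EuclideanSpace ℝ (Fin (d + k)) :=
  Φ.mk' (Φ.θ p * Φ.θ q) ((ee d k p).2 + (ee d k q).2)

/-- inversion -/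
noncomputable def inv (p : EuclideanSpace ℝ (Fin (d + k))) : EuclideanSpace ℝ (Fin (d + k)) :=
  Φ.mk' (Φ.θ p)⁻¹ (-(ee d k p).2)

theorem θ_mul' (p q : EuclideanSpace ℝ (Fin (d + k))) : Φ.θ (Φ.mul p q) = Φ.θ p * Φ.θ q := by
  refine Φ.θ_mk ?_
  have h1 := mul_mem (mul_mem (Φ.pr_add (ee d k p).2 (ee d k q).2)
    (Φ.pr_conj (ee d k q).2 ⟨(ee d k p).1, rfl⟩)) (⟨(ee d k q).1, rfl⟩ : _ ∈ (EUh R).range)
  simp only [mul_assoc, mul_inv_cancel_left] at h1
  simp only [θ, mul_assoc]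
  exact h1

theorem θ_inv' (p : EuclideanSpace ℝ (Fin (d + k))) : Φ.θ (Φ.inv p) = (Φ.θ p)⁻¹ := by
  refine Φ.θ_mk ?_
  have h0 := Φ.pr_add (ee d k p).2 (-(ee d k p).2)
  rw [add_neg_cancel, Φ.pr_zero, inv_one, one_mul] at h0
  have h1 := mul_mem (Φ.pr_conj (-(ee d k p).2)
    (inv_mem (⟨(ee d k p).1, rfl⟩ : _ ∈ (EUh R).range))) (inv_mem h0)
  simp only [mul_assoc, mul_inv_cancel_left, mul_inv_rev] at h1
  simp only [θ, mul_inv_rev]
  exact h1

theorem CoU_θ {X : Type*} [NormedAddCommGroup X] [NormedSpace ℝ X]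
    {f : X → EuclideanSpace ℝ (Fin (d + k))} (hf : ContDiff ℝ ∞ f) :
    CoU (smoothS X) fun p => Φ.θ (f p) :=
  (Φ.CoU_pr ((ee d k).contDiff.comp hf).snd).mul
    (CoU.EU R fun i => contDiff_pi.1 ((ee d k).contDiff.comp hf).fst i)

theorem contDiff_mk {X : Type*} [NormedAddCommGroup X] [NormedSpace ℝ X] {a : X → Aˣ}
    {y : X → Fin k → ℝ} (ha : CoU (smoothS X) a) (hy : ContDiff ℝ ∞ y) :
    ContDiff ℝ ∞ fun p => Φ.mk' (a p) (y p) :=
  (ee d k).symm.contDiff.comp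
    ((contDiff_pi.2 fun i => mem_smoothS.1 (((Φ.CoU_pr hy).inv.mul ha).1 (R.ℓ i))).prodMk hy)

theorem contDiff_mul' : ContDiff ℝ ∞
    fun p : EuclideanSpace ℝ (Fin (d + k)) × EuclideanSpace ℝ (Fin (d + k)) => Φ.mul p.1 p.2 :=
  Φ.contDiff_mk ((Φ.CoU_θ contDiff_fst).mul (Φ.CoU_θ contDiff_snd))
    (((ee d k).contDiff.comp contDiff_fst).snd.add ((ee d k).contDiff.comp contDiff_snd).snd)

theorem contDiff_inv' : ContDiff ℝ ∞ Φ.inv :=
  Φ.contDiff_mk (Φ.CoU_θ contDiff_id).inv (ee d k).contDiff.snd.neg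

/-- the group, as a type -/
def GG (_Φ : Flow R k) : Type := EuclideanSpace ℝ (Fin (d + k))

noncomputable instance : Mul Φ.GG := ⟨Φ.mul⟩
noncomputable instance : One Φ.GG := ⟨(0 : EuclideanSpace ℝ (Fin (d + k)))⟩
noncomputable instance : Inv Φ.GG := ⟨Φ.inv⟩

/-- abelian coordinates -/
noncomputable def xc (p : Φ.GG) : Fin k → ℝ := (ee d k p).2

/-- nilpotent coordinates -/
noncomputable def sc (p : Φ.GG) : R.NR := (ee d k p).1

/-- the unit attached to a point of the group -/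
noncomputable def th (p : Φ.GG) : Aˣ := Φ.θ p

/-- the point of the group attached to a unit and abelian coordinates -/
noncomputable def pt (a : Aˣ) (y : Fin k → ℝ) : Φ.GG := Φ.mk' a y

theorem th_mul (p q : Φ.GG) : Φ.th (p * q) = Φ.th p * Φ.th q := Φ.θ_mul' p q
theorem th_inv (p : Φ.GG) : Φ.th p⁻¹ = (Φ.th p)⁻¹ := Φ.θ_inv' p
theorem th_one : Φ.th 1 = 1 := Φ.θ_zero
theorem xc_mul (p q : Φ.GG) : Φ.xc (p * q) = Φ.xc p + Φ.xc q := Φ.x_mk _ _
theorem xc_inv (p : Φ.GG) : Φ.xc p⁻¹ = -Φ.xc p := Φ.x_mk _ _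
theorem xc_one : Φ.xc 1 = 0 := congrArg Prod.snd (map_zero (ee d k))
theorem ext {p q : Φ.GG} (h1 : Φ.th p = Φ.th q) (h2 : Φ.xc p = Φ.xc q) : p = q := Φ.ext' h1 h2
theorem th_eq (p : Φ.GG) : Φ.th p = Φ.pr (Φ.xc p) * EUh R (Φ.sc p) := rfl
theorem xc_pt (a : Aˣ) (y : Fin k → ℝ) : Φ.xc (Φ.pt a y) = y := Φ.x_mk _ _
theorem th_pt {a : Aˣ} {y : Fin k → ℝ} (h : (Φ.pr y)⁻¹ * a ∈ (EUh R).range) :
    Φ.th (Φ.pt a y) = a := Φ.θ_mk h

theorem sc_eq {p : Φ.GG} {s : R.NR} (h : Φ.th p = Φ.pr (Φ.xc p) * EUh R s) : Φ.sc p = s :=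
  R.EU_injective (mul_left_cancel ((Φ.th_eq p).symm.trans h))

noncomputable instance : Group Φ.GG :=
  Group.ofLeftAxioms
    (fun a b c => Φ.ext (by simp only [th_mul, mul_assoc]) (by simp only [xc_mul, add_assoc]))
    (fun a => Φ.ext (by rw [th_mul, th_one, one_mul]) (by rw [xc_mul, xc_one, zero_add]))
    (fun a => Φ.ext (by rw [th_mul, th_one, th_inv, inv_mul_cancel])
      (by rw [xc_mul, xc_one, xc_inv, neg_add_cancel]))

noncomputable instance : TopologicalSpace Φ.GG :=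
  inferInstanceAs (TopologicalSpace (EuclideanSpace ℝ (Fin (d + k))))
instance : T2Space Φ.GG := inferInstanceAs (T2Space (EuclideanSpace ℝ (Fin (d + k))))
instance : LocallyCompactSpace Φ.GG :=
  inferInstanceAs (LocallyCompactSpace (EuclideanSpace ℝ (Fin (d + k))))
instance : SecondCountableTopology Φ.GG :=
  inferInstanceAs (SecondCountableTopology (EuclideanSpace ℝ (Fin (d + k))))
instance : ConnectedSpace Φ.GG :=
  inferInstanceAs (ConnectedSpace (EuclideanSpace ℝ (Fin (d + k))))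
instance : SimplyConnectedSpace Φ.GG :=
  inferInstanceAs (SimplyConnectedSpace (EuclideanSpace ℝ (Fin (d + k))))
noncomputable instance : ChartedSpace (EuclideanSpace ℝ (Fin (d + k))) Φ.GG :=
  chartedSpaceSelf (EuclideanSpace ℝ (Fin (d + k)))

instance : LieGroup (𝓡 (d + k)) ∞ Φ.GG :=
  { (inferInstance : IsManifold (𝓡 (d + k)) ∞ (EuclideanSpace ℝ (Fin (d + k)))) with
    contMDiff_mul := Φ.contDiff_mul'.contMDiff.comp (contMDiff_fst.prodMk_space contMDiff_snd)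
    contMDiff_inv := Φ.contDiff_inv'.contMDiff }

instance : IsTopologicalGroup Φ.GG := topologicalGroup_of_lieGroup (𝓡 (d + k)) ∞

theorem th_pt0 (s : R.NR) : Φ.th (Φ.pt (EUh R s) 0) = EUh R s :=
  Φ.th_pt (by rw [Φ.pr_zero, inv_one, one_mul]; exact ⟨s, rfl⟩)

/-- the nilpotent part -/
noncomputable def jj : R.NR →* Φ.GG :=
  MonoidHom.mk' (fun s => Φ.pt (EUh R s) 0) fun s t =>
    Φ.ext (by rw [th_mul, th_pt0, th_pt0, th_pt0, map_mul]) (by
      simp only [xc_mul, xc_pt, add_zero])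

instance : Group.IsSolvable Φ.GG := by
  have := solvable_NR R
  let ξ : Φ.GG →* Multiplicative (Fin k → ℝ) :=
    MonoidHom.mk' (fun p => Multiplicative.ofAdd (Φ.xc p)) fun p q => by rw [xc_mul, ofAdd_add]
  refine Group.isSolvable_of_ker_le_range Φ.jj ξ fun p hp => ⟨Φ.sc p, ?_⟩
  have h0 : Φ.xc p = 0 := hp
  refine Φ.ext ?_ ((Φ.xc_pt _ _).trans h0.symm)
  rw [Φ.th_eq p, h0, Φ.pr_zero, one_mul]
  exact Φ.th_pt0 _

/-- the bundled group -/
noncomputable def lie : SolvableLieGroup.{0} where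
  carrier := Φ.GG
  n := d + k

end Flow

end Vale.Agent.N188
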