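import Vale.Agent.N188.Plan

/-!
Discrete cocompact subgroups: fundamental domains and finite generation.
-/

universe u

namespace Vale.Agent.N188

open Topology Filter Set MeasureTheory
open scoped Pointwise

theorem fund : FundStmt.{u} := by
  intro G _ _ _ _ _ _ Λ hd K hK hcov
  refine ⟨⟨hd, ?_⟩, ⟨?_⟩⟩
  · let : MeasurableSpace G := borel G
    have : BorelSpace G := ⟨rfl⟩
    obtain ⟨O, hO, hO1⟩ := isOpen_induced_iff.1 (isOpen_discrete ({1} : Set Λ))
    have h1 : O ∈ 𝓝 (1 : G) := hO.mem_nhds (by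
      have : (1 : Λ) ∈ Subtype.val ⁻¹' O := by rw [hO1]; rfl
      exact this)
    obtain ⟨V0, hV0, hV0'⟩ := exists_nhds_split_inv h1
    obtain ⟨C, hC, hC1⟩ := exists_compact_mem_nhds (1 : G)
    let V : Set G := interior (V0 ∩ C)
    have hV : V ∈ 𝓝 (1 : G) := interior_mem_nhds.2 (inter_mem hV0 hC1)
    let U : G → Set G := fun k => {x | x * k⁻¹ ∈ V}
    have hUo : ∀ k, IsOpen (U k) := fun k =>
      isOpen_interior.preimage (f := fun x : G => x * k⁻¹) (by fun_prop)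
    obtain ⟨t, -, ht⟩ := hK.inv.elim_nhds_subcover U fun k _ => (hUo k).mem_nhds (by
      show k * k⁻¹ ∈ V
      rw [mul_inv_cancel]; exact mem_of_mem_nhds hV)
    let a : ℕ → G := fun i => t.toList.getD i 1
    let n := t.toList.length
    have ha : ∀ g : G, ∃ i, i < n ∧ ∃ x : Λ, x • g ∈ U (a i) := by
      intro g
      obtain ⟨x, hx, hgx⟩ := hcov g⁻¹
      have h2 : x⁻¹ * g ∈ K⁻¹ := by simpa using hgx
      obtain ⟨k, hk, hk'⟩ := mem_iUnion₂.1 (ht h2)
      obtain ⟨i, hi, rfl⟩ := List.mem_iff_getElem.1 (Finset.mem_toList.2 hk)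
      refine ⟨i, hi, ⟨x, hx⟩⁻¹, ?_⟩
      have : a i = t.toList[i] := List.getD_eq_getElem _ _ hi
      rw [this]; exact hk'
    let F : Set G := ⋃ i ∈ Iio n, (U (a i) ∩ ⋂ j ∈ Iio i, (⋃ x : Λ, {g | x • g ∈ U (a j)})ᶜ)
    have hF : ∀ g, g ∈ F ↔ ∃ i, i < n ∧ g ∈ U (a i) ∧ ∀ j, j < i → ∀ x : Λ, x • g ∉ U (a j) := by
      intro g
      simp only [F, mem_iUnion, mem_inter_iff, mem_iInter, mem_compl_iff, mem_Iio, exists_prop,
        not_exists, mem_ofPred_eq]
    refine ⟨Measure.haar, inferInstance, F, IsFundamentalDomain.mk' ?_ fun g => ?_, ?_⟩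
    · refine MeasurableSet.nullMeasurableSet (MeasurableSet.biUnion (to_countable _) fun i _ =>
        (hUo _).measurableSet.inter (MeasurableSet.biInter (to_countable _) fun j _ => ?_))
      refine (isOpen_iUnion fun x => ?_).measurableSet.compl
      exact (hUo _).preimage (f := fun g : G => (x : G) * g) (by fun_prop)
    · classical
      obtain ⟨hi, x, hx⟩ := Nat.find_spec (ha g)
      refine ⟨x, (hF _).2 ⟨_, hi, hx, fun j hj y hy => Nat.find_min (ha g) hj
        ⟨hj.trans hi, y * x, by rwa [mul_smul]⟩⟩, fun y hy => ?_⟩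
      obtain ⟨j, hj, hy1, hy2⟩ := (hF _).1 hy
      have h3 : j = Nat.find (ha g) := by
        refine le_antisymm ?_ (Nat.find_min' _ ⟨hj, y, hy1⟩)
        by_contra hc
        refine hy2 _ (not_le.1 hc) (x * y⁻¹) ?_
        rwa [mul_smul, inv_smul_smul]
      rw [h3] at hy1
      have h4 := hV0' _ (interior_subset hy1).1 _ (interior_subset hx).1
      have h5 : y * x⁻¹ ∈ Subtype.val ⁻¹' O := by
        show ((y * x⁻¹ : Λ) : G) ∈ O
        simpa [Subgroup.smul_def, div_eq_mul_inv, mul_assoc] using h4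
      rw [hO1] at h5
      exact mul_inv_eq_one.1 h5
    · have h6 : IsCompact (⋃ i ∈ Iio n, (fun x => x * a i) '' C) :=
        (finite_Iio n).isCompact_biUnion fun i _ => hC.image (by fun_prop)
      refine (measure_mono fun g hg => ?_).trans_lt h6.measure_lt_top
      obtain ⟨i, hi, h7, -⟩ := (hF g).1 hg
      exact mem_iUnion₂.2 ⟨i, hi, g * (a i)⁻¹, (interior_subset h7).2, by simp⟩
  · have h1 := hK.image (QuotientGroup.continuous_mk (N := Λ))
    refine h1.of_isClosed_subset isClosed_univ fun q _ => ?_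
    obtain ⟨g, rfl⟩ := QuotientGroup.mk_surjective q
    obtain ⟨x, hx, hgx⟩ := hcov g
    exact ⟨g * x, hgx, QuotientGroup.eq.2 (by simpa using hx)⟩

theorem fgen : FGStmt.{u} := by
  intro G _ _ _ _ _ _ Λ hd hc
  obtain ⟨C, hC, hC1⟩ := exists_compact_mem_nhds (1 : G)
  let U : G → Set G := fun k => (fun x => k * x) '' interior C
  have hUo : ∀ k, IsOpen (U k) := fun k => (isOpenMap_mul_left k) _ isOpen_interior
  obtain ⟨t, ht⟩ := isCompact_univ.elim_finite_subcover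
    (fun k : G => (QuotientGroup.mk : G → G ⧸ Λ) '' U k)
    (fun k => QuotientGroup.isOpenMap_coe _ (hUo k)) (fun q _ => by
      obtain ⟨g, rfl⟩ := QuotientGroup.mk_surjective q
      exact mem_iUnion.2 ⟨g, g, ⟨1, mem_interior_iff_mem_nhds.2 hC1, mul_one g⟩, rfl⟩)
  let W : Set G := ⋃ k ∈ t, U k
  have hWo : IsOpen W := isOpen_biUnion fun k _ => hUo k
  let K : Set G := ⋃ k ∈ t, (fun x => k * x) '' C
  have hK : IsCompact K := t.isCompact_biUnion fun k _ => hC.image (by fun_prop)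
  have hWK : W ⊆ K := iUnion₂_mono fun k _ => image_mono interior_subset
  have hcov : ∀ g : G, ∃ x : Λ, g * (x : G)⁻¹ ∈ W := by
    intro g
    obtain ⟨k, hk, w, hw, hw'⟩ := mem_iUnion₂.1 (ht (mem_univ (QuotientGroup.mk g)))
    exact ⟨⟨w⁻¹ * g, QuotientGroup.eq.1 hw'⟩, mem_iUnion₂.2 ⟨k, hk, by simpa using hw⟩⟩
  have hS : (Subtype.val ⁻¹' (K⁻¹ * K) : Set Λ).Finite := by
    have h1 := (Subgroup.tendsto_coe_cofinite_of_discrete Λ
      (isDiscrete_iff_discreteTopology.2 hd)) (hK.inv.mul hK).compl_mem_cocompact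
    simpa using h1
  refine Group.fg_iff.2 ⟨_, ?_, hS⟩
  rw [eq_top_iff]
  intro y _
  by_contra hy
  set L := Subgroup.closure (Subtype.val ⁻¹' (K⁻¹ * K) : Set Λ)
  have hop : ∀ P : Λ → Prop, IsOpen {g : G | ∃ x : Λ, P x ∧ g * (x : G)⁻¹ ∈ W} := fun P => by
    rw [ofPred_exists]
    refine isOpen_iUnion fun x => ?_
    by_cases hP : P x
    · simp only [hP, true_and]
      exact hWo.preimage (f := fun g : G => g * (x : G)⁻¹) (by fun_prop)
    · simp [hP]
  obtain ⟨x0, hx0⟩ := hcov 1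
  obtain ⟨g, -, ⟨x, hx, hgx⟩, ⟨z, hz, hgz⟩⟩ := isPreconnected_univ (α := G) _ _
    (hop fun x => x ∈ L) (hop fun x => x ∉ L) (fun g _ => by
      obtain ⟨x, hx⟩ := hcov g
      by_cases h : x ∈ L
      · exact Or.inl ⟨x, h, hx⟩
      · exact Or.inr ⟨x, h, hx⟩)
    ⟨1 * (x0 : G)⁻¹, trivial, 1, one_mem _, by simpa using hx0⟩
    ⟨1 * (x0 : G)⁻¹ * y, trivial, y, hy, by simpa using hx0⟩
  have h2 : z * x⁻¹ ∈ L := Subgroup.subset_closure
    ⟨(g * (z : G)⁻¹)⁻¹, by simpa using hWK hgz, g * (x : G)⁻¹, hWK hgx, by simp [mul_assoc]⟩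
  exact hz (by simpa using mul_mem h2 hx)

end Vale.Agent.N188
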