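import Vale.Agent.N188.Plan

/-!
Exponential polynomials with exponents in a subgroup of `ℂ` on which `exp` is injective.
-/

open scoped ContDiff TensorProduct
open Polynomial Finset

namespace Vale.Agent.N188

/-- the exponents -/
structure Expo (L : AddSubgroup ℂ) : Prop where
  conj : ∀ z ∈ L, (starRingEnd ℂ) z ∈ L
  inj : ∀ z ∈ L, ∀ w ∈ L, Complex.exp z = Complex.exp w → z = w
  pow : ∀ a : ℂ, a ≠ 0 → ∃ M : ℕ, 0 < M ∧ ∃ z ∈ L, a ^ M = Complex.exp z

theorem exists_expo : ∃ L : AddSubgroup ℂ, Expo L := by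
  obtain ⟨C, hC⟩ := (Submodule.span ℚ {Real.pi}).exists_isCompl
  refine ⟨C.toAddSubgroup.comap Complex.imLm.toAddMonoidHom, ?_, ?_, ?_⟩
  · intro z hz
    have h : z.im ∈ C := hz
    show ((starRingEnd ℂ) z).im ∈ C
    rw [Complex.conj_im]
    exact C.neg_mem h
  · intro z hz w hw h
    have h1 : z.im ∈ C := hz
    have h2 : w.im ∈ C := hw
    obtain ⟨n, hn⟩ := Complex.exp_eq_exp_iff_exists_int.1 h
    have h3 : z.im - w.im = ((2 * n : ℤ) : ℚ) • Real.pi := by
      rw [hn, Rat.smul_def]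
      simp
      ring
    have h4 : z.im - w.im ∈ Submodule.span ℚ {Real.pi} :=
      h3 ▸ Submodule.smul_mem _ _ (Submodule.mem_span_singleton_self _)
    have h5 := Submodule.disjoint_def.1 hC.disjoint _ h4 (C.sub_mem h1 h2)
    apply Complex.ext
    · rw [hn]
      simp
    · linarith
  · intro a ha
    have h0 : (Complex.log a).im ∈ Submodule.span ℚ {Real.pi} ⊔ C := by
      rw [hC.sup_eq_top]
      trivial
    obtain ⟨y, hy, c, hc, hyc⟩ := Submodule.mem_sup.1 h0
    obtain ⟨q, rfl⟩ := Submodule.mem_span_singleton.1 hy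
    refine ⟨2 * q.den, by have := q.den_pos; omega,
      ((2 * q.den : ℕ) : ℂ) * Complex.log a - q.num * (2 * Real.pi * Complex.I), ?_, ?_⟩
    · show (((2 * q.den : ℕ) : ℂ) * Complex.log a - q.num * (2 * Real.pi * Complex.I)).im ∈ C
      have h1 : (q.den : ℝ) * (q : ℝ) = q.num := by
        exact_mod_cast Rat.den_mul_eq_num q
      have : (((2 * q.den : ℕ) : ℂ) * Complex.log a - q.num * (2 * Real.pi * Complex.I)).im =
          ((2 * q.den : ℕ) : ℚ) • c := by
        rw [Rat.smul_def] at hyc ⊢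
        simp [← hyc]
        rw [← h1]
        ring
      rw [this]
      exact C.smul_mem _ hc
    · rw [Complex.exp_sub, Complex.exp_int_mul_two_pi_mul_I, div_one, Complex.exp_nat_mul,
        Complex.exp_log ha]

/-- a polynomial times an exponential -/
noncomputable def pe (z : ℂ) : ℂ[X] →ₗ[ℂ] (ℝ → ℂ) where
  toFun p x := p.eval (x : ℂ) * Complex.exp (z * x)
  map_add' p q := by
    ext x
    simp [add_mul]
  map_smul' c p := by
    ext x
    simp [mul_assoc]

theorem pe_apply (z : ℂ) (p : ℂ[X]) (x : ℝ) : pe z p x = p.eval (x : ℂ) * Complex.exp (z * x) :=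
  rfl

/-- exponential polynomials -/
noncomputable def EP (L : AddSubgroup ℂ) : Submodule ℂ (ℝ → ℂ) :=
  ⨆ z : L, LinearMap.range (pe z)

variable {L : AddSubgroup ℂ}

theorem pe_mem {z : ℂ} (hz : z ∈ L) (p : ℂ[X]) : pe z p ∈ EP L :=
  Submodule.mem_iSup_of_mem (⟨z, hz⟩ : L) ⟨p, rfl⟩

theorem EP_ind {P : (ℝ → ℂ) → Prop} (h1 : ∀ z ∈ L, ∀ p, P (pe z p))
    (h2 : ∀ f g, P f → P g → P (f + g)) {f : ℝ → ℂ} (hf : f ∈ EP L) : P f := by
  refine Submodule.iSup_induction _ (motive := P) hf ?_ ?_ h2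
  · rintro z _ ⟨p, rfl⟩
    exact h1 z z.2 p
  · simpa using h1 0 L.zero_mem 0

theorem EP_mul {f g : ℝ → ℂ} (hf : f ∈ EP L) (hg : g ∈ EP L) : f * g ∈ EP L := by
  refine EP_ind (P := fun f => f * g ∈ EP L) (fun z hz p => ?_)
    (fun a b ha hb => by rw [add_mul]; exact (EP L).add_mem ha hb) hf
  refine EP_ind (P := fun g => pe z p * g ∈ EP L) (fun w hw q => ?_)
    (fun a b ha hb => by rw [mul_add]; exact (EP L).add_mem ha hb) hg
  convert pe_mem (L.add_mem hz hw) (p * q) using 1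
  ext x
  simp only [Pi.mul_apply, pe_apply, eval_mul, add_mul, Complex.exp_add]
  ring

theorem EP_one : (1 : ℝ → ℂ) ∈ EP L := by
  convert pe_mem L.zero_mem 1 using 1
  ext x
  simp [pe_apply]

theorem EP_shift {f : ℝ → ℂ} (hf : f ∈ EP L) (c : ℝ) : (fun x => f (c + x)) ∈ EP L := by
  refine EP_ind (P := fun f => (fun x => f (c + x)) ∈ EP L) (fun z hz p => ?_)
    (fun a b ha hb => (EP L).add_mem ha hb) hf
  convert pe_mem hz (C (Complex.exp (z * c)) * taylor (c : ℂ) p) using 1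
  ext x
  simp only [pe_apply, eval_mul, eval_C, taylor_eval, Complex.ofReal_add, mul_add,
    Complex.exp_add, add_comm (x : ℂ)]
  ring

theorem EP_neg {f : ℝ → ℂ} (hf : f ∈ EP L) : (fun x => f (-x)) ∈ EP L := by
  refine EP_ind (P := fun f => (fun x => f (-x)) ∈ EP L) (fun z hz p => ?_)
    (fun a b ha hb => (EP L).add_mem ha hb) hf
  convert pe_mem (L.neg_mem hz) (p.comp (-X)) using 1
  ext x
  simp [pe_apply]

theorem EP_conj (hL : Expo L) {f : ℝ → ℂ} (hf : f ∈ EP L) :
    (fun x => (starRingEnd ℂ) (f x)) ∈ EP L := by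
  refine EP_ind (P := fun f => (fun x => (starRingEnd ℂ) (f x)) ∈ EP L) (fun z hz p => ?_)
    (fun a b ha hb => ?_) hf
  · convert pe_mem (hL.conj z hz) (p.map (starRingEnd ℂ)) using 1
    ext x
    have := eval₂_at_apply (p := p) (starRingEnd ℂ) (x : ℂ)
    rw [Complex.conj_ofReal] at this
    simp only [pe_apply, map_mul, ← Complex.exp_conj, Complex.conj_ofReal, eval_map, this]
  · simp only [Pi.add_apply, map_add]
    exact (EP L).add_mem ha hb

theorem EP_re (hL : Expo L) {f : ℝ → ℂ} (hf : f ∈ EP L) :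
    (fun x => (((f x).re : ℝ) : ℂ)) ∈ EP L := by
  convert (EP L).smul_mem (1 / 2 : ℂ) ((EP L).add_mem hf (EP_conj hL hf)) using 1
  ext x
  simp only [Pi.smul_apply, Pi.add_apply, Complex.add_conj, smul_eq_mul]
  push_cast
  ring

theorem EP_smooth {f : ℝ → ℂ} (hf : f ∈ EP L) : ContDiff ℝ ∞ f := by
  refine EP_ind (P := fun f => ContDiff ℝ ∞ f) (fun z _ p => ?_) (fun a b ha hb => ha.add hb) hf
  have h1 : Differentiable ℂ fun w : ℂ => p.eval w * Complex.exp (z * w) :=
    p.differentiable.mul (by fun_prop)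
  exact ((h1.contDiff (n := ∞)).restrict_scalars ℝ).comp Complex.ofRealCLM.contDiff

/-- the shift of sequences -/
noncomputable def shiftN : Module.End ℂ (ℕ → ℂ) := LinearMap.funLeft ℂ ℂ Nat.succ

theorem shift_pow_kill (a : ℂ) (d : ℕ) : ∀ p : ℂ[X], p.degree < d →
    ((shiftN - a • (1 : Module.End ℂ (ℕ → ℂ))) ^ d) (fun n : ℕ => p.eval (n : ℂ) * a ^ n) = 0 := by
  induction d with
  | zero =>
    intro p hp
    have : p = 0 := degree_eq_bot.1 (by simpa using hp)
    ext n
    simp [this]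
  | succ d ih =>
    intro p hp
    rw [pow_succ, Module.End.mul_apply]
    have e : (shiftN - a • (1 : Module.End ℂ (ℕ → ℂ))) (fun n : ℕ => p.eval (n : ℂ) * a ^ n) =
        fun n : ℕ => (a • (taylor 1 p - p)).eval (n : ℂ) * a ^ n := by
      ext n
      simp [shiftN, LinearMap.funLeft_apply, taylor_eval]
      ring
    rw [e]
    apply ih
    refine (degree_smul_le _ _).trans_lt ?_
    by_cases h0 : p = 0
    · simp [h0]
    · have h1 := degree_sub_lt_right (degree_taylor p 1) h0 (leadingCoeff_taylor _ _)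
      rw [degree_eq_natDegree h0] at h1 hp
      have : p.natDegree ≤ d := by
        have : p.natDegree < d + 1 := by exact_mod_cast hp
        omega
      exact h1.trans_le (by exact_mod_cast this)

theorem EP_unique (hL : Expo L) {f : ℝ → ℂ} (hf : f ∈ EP L) (h0 : ∀ n : ℕ, f n = 0) : f = 0 := by
  obtain ⟨F, hF, rfl⟩ := (Submodule.mem_iSup_iff_exists_finsupp _ _).1 hf
  choose p hp using hF
  have ind := (Module.End.independent_maxGenEigenspace shiftN).comp
    (f := fun z : L => Complex.exp z) fun z w h => Subtype.ext (hL.inj _ z.2 _ w.2 h)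
  have key := (iSupIndep_iff_finsetSum_eq_zero_imp_eq_zero _).1 ind F.support
    (fun z n => (p z).eval (n : ℂ) * Complex.exp z ^ n)
    (fun z _ => (Module.End.mem_maxGenEigenspace _ _ _).2 ⟨(p z).natDegree + 1,
      shift_pow_kill _ _ _ (degree_le_natDegree.trans_lt (by exact_mod_cast Nat.lt_succ_self _))⟩)
    (by
      ext n
      have := h0 n
      rw [Finsupp.sum, Finset.sum_apply] at this
      rw [Finset.sum_apply, Pi.zero_apply, ← this]
      refine sum_congr rfl fun z _ => ?_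
      rw [← hp z, pe_apply, ← Complex.exp_nat_mul, mul_comm (n : ℂ)]
      simp)
  refine sum_eq_zero fun z hz => ?_
  have h1 : p z = 0 := by
    apply eq_zero_of_infinite_isRoot
    refine Set.infinite_of_injective_forall_mem (f := fun n : ℕ => (n : ℂ)) Nat.cast_injective
      fun n => ?_
    have := congrFun (key z hz) n
    simpa using this
  rw [← hp z, h1, map_zero]

theorem binom_apply {B : Type} [AddCommGroup B] [Module ℂ B] (G : Module.End ℂ B) {a : ℂ}
    (ha : a ≠ 0) {v : B} {d : ℕ} (hv : ((G - a • (1 : Module.End ℂ B)) ^ d) v = 0) (n : ℕ) :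
    (G ^ n) v = ∑ j ∈ range d,
      ((n.choose j : ℂ) * a ^ n / a ^ j) • ((G - a • (1 : Module.End ℂ B)) ^ j) v := by
  set N := G - a • (1 : Module.End ℂ B) with hN
  have hc : Commute N (a • (1 : Module.End ℂ B)) := (Commute.one_right N).smul_right a
  have e : G = N + a • (1 : Module.End ℂ B) := by rw [hN, sub_add_cancel]
  have h1 : (G ^ n) v = ∑ j ∈ range (n + 1), ((n.choose j : ℂ) * a ^ n / a ^ j) • (N ^ j) v := by
    rw [e, hc.add_pow, LinearMap.sum_apply]
    refine sum_congr rfl fun j hj => ?_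
    have hj' : j ≤ n := by simpa [Nat.lt_succ_iff] using hj
    rw [mul_div_assoc, div_eq_mul_inv, ← pow_sub₀ a ha hj']
    simp [_root_.smul_pow, smul_smul, ← Nat.cast_smul_eq_nsmul ℂ, mul_comm]
  rw [h1, sum_subset (s₂ := range (n + 1 + d)) (range_mono (by omega)),
    sum_subset (s₁ := range d) (s₂ := range (n + 1 + d)) (range_mono (by omega))]
  · intro j _ hj
    have : d ≤ j := by simpa using hj
    obtain ⟨k, rfl⟩ := Nat.exists_eq_add_of_le' this
    rw [pow_add N, Module.End.mul_apply, hv, map_zero, smul_zero]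
  · intro j _ hj
    have : n < j := by simpa [Nat.lt_succ_iff] using hj
    rw [Nat.choose_eq_zero_of_lt this]
    simp

theorem interp_end (hL : Expo L) {B : Type} [AddCommGroup B] [Module ℂ B] [FiniteDimensional ℂ B]
    (G : Module.End ℂ B) (hG : Function.Injective G) :
    ∃ M : ℕ, 0 < M ∧ ∀ v : B, ∃ Γ : ℝ → B, (∀ n : ℕ, Γ n = (G ^ (M * n)) v) ∧
      ∀ ψ : B →ₗ[ℂ] ℂ, (fun x => ψ (Γ x)) ∈ EP L := by
  have ne : ∀ a, G.HasEigenvalue a → a ≠ 0 := by
    rintro a ha rfl
    obtain ⟨v, hv⟩ := ha.exists_hasEigenvector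
    exact hv.2 (hG (by rw [hv.apply_eq_smul, zero_smul, map_zero]))
  choose! m hm z hz hmz using hL.pow
  let s := G.finite_hasEigenvalue.toFinset
  have hs : ∀ a, a ∈ s ↔ G.HasEigenvalue a := fun a => Set.Finite.mem_toFinset _
  refine ⟨∏ a ∈ s, m a, prod_pos fun a ha => hm a (ne a ((hs a).1 ha)), fun v => ?_⟩
  set M := ∏ a ∈ s, m a with hM
  have hv : v ∈ ⨆ a, G.maxGenEigenspace a := by
    rw [Module.End.iSup_maxGenEigenspace_eq_top]
    trivial
  have zero : ∃ Γ : ℝ → B, (∀ n : ℕ, Γ n = (G ^ (M * n)) 0) ∧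
      ∀ ψ : B →ₗ[ℂ] ℂ, (fun x => ψ (Γ x)) ∈ EP L :=
    ⟨0, fun n => by simp, fun ψ => by
      simp only [Pi.zero_apply, map_zero]
      exact (EP L).zero_mem⟩
  refine Submodule.iSup_induction _ (motive := fun v => ∃ Γ : ℝ → B,
    (∀ n : ℕ, Γ n = (G ^ (M * n)) v) ∧ ∀ ψ : B →ₗ[ℂ] ℂ, (fun x => ψ (Γ x)) ∈ EP L) hv ?_ zero ?_
  · intro a v hv
    by_cases h0 : v = 0
    · exact h0 ▸ zero
    obtain ⟨d, hd⟩ := (Module.End.mem_maxGenEigenspace _ _ _).1 hv
    have ha : G.HasEigenvalue a := by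
      refine Module.End.hasEigenvalue_of_hasGenEigenvalue (k := d) ?_
      refine (Submodule.ne_bot_iff _).2 ⟨v, ?_, h0⟩
      exact Module.End.mem_genEigenspace_nat.2 hd
    obtain ⟨k, hk⟩ : m a ∣ M := dvd_prod_of_mem _ ((hs a).2 ha)
    let q : ℕ → ℂ[X] := fun j =>
      C (1 / (j.factorial * a ^ j)) * (descPochhammer ℂ j).comp (C (M : ℂ) * X)
    refine ⟨fun x => ∑ j ∈ range d, pe (k • z a) (q j) x •
      ((G - a • (1 : Module.End ℂ B)) ^ j) v, fun n => ?_, fun ψ => ?_⟩
    · rw [binom_apply G (ne a ha) hd]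
      refine sum_congr rfl fun j _ => ?_
      congr 1
      have e1 : Complex.exp (k • z a * ((n : ℝ) : ℂ)) = a ^ (M * n) := by
        rw [hk, mul_assoc, pow_mul, hmz a (ne a ha), ← Complex.exp_nat_mul]
        congr 1
        simp
        ring
      have e2 : (descPochhammer ℂ j).eval ((M : ℂ) * n) = j.factorial * (M * n).choose j := by
        rw [← Nat.cast_mul, descPochhammer_eval_eq_descFactorial,
          Nat.descFactorial_eq_factorial_mul_choose, Nat.cast_mul]
      have e3 : (j.factorial : ℂ) ≠ 0 := by exact_mod_cast j.factorial_ne_zero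
      have e4 := ne a ha
      rw [pe_apply, e1]
      simp only [q, eval_mul, eval_C, eval_comp, eval_X, Complex.ofReal_natCast, e2]
      field_simp
    · have : (fun x => ψ (∑ j ∈ range d, pe (k • z a) (q j) x •
          ((G - a • (1 : Module.End ℂ B)) ^ j) v)) = ∑ j ∈ range d,
          ψ (((G - a • (1 : Module.End ℂ B)) ^ j) v) • pe (k • z a) (q j) := by
        ext x
        simp [mul_comm]
      rw [this]
      exact (EP L).sum_mem fun j _ =>
        (EP L).smul_mem _ (pe_mem (L.nsmul_mem (hz a (ne a ha)) k) _)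
  · rintro v w ⟨Γ, h1, h2⟩ ⟨Γ', h3, h4⟩
    refine ⟨Γ + Γ', fun n => by simp [h1, h3], fun ψ => ?_⟩
    simp only [Pi.add_apply, map_add]
    exact (EP L).add_mem (h2 ψ) (h4 ψ)

theorem interp : InterpStmt := by
  obtain ⟨L, hL⟩ := exists_expo
  let E : Subalgebra ℂ (ℝ → ℂ) := (EP L).toSubalgebra EP_one fun _ _ => EP_mul
  let S : Subalgebra ℝ (ℝ → ℝ) := (E.restrictScalars ℝ).comap (Complex.ofRealAm.compLeft ℝ)
  have hS : ∀ f : ℝ → ℝ, f ∈ S ↔ (fun x => (f x : ℂ)) ∈ EP L := fun f => Iff.rfl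
  refine ⟨S, fun f hf c => (hS _).2 (EP_shift ((hS _).1 hf) c),
    fun f hf => (hS _).2 (EP_neg ((hS _).1 hf)), fun f hf => ?_, fun f hf h0 => ?_, ?_⟩
  · exact Complex.reCLM.contDiff.comp (EP_smooth ((hS _).1 hf))
  · have := EP_unique hL ((hS _).1 hf) fun n => by simp [h0 n]
    ext x
    simpa using congrFun this x
  · intro A _ _ _ g hg
    have hu : IsUnit ((1 : ℂ) ⊗ₜ[ℝ] g) :=
      hg.map (Algebra.TensorProduct.includeRight (R := ℝ) (A := ℂ))
    obtain ⟨M, hM, h⟩ := interp_end hL (LinearMap.mulLeft ℂ ((1 : ℂ) ⊗ₜ[ℝ] g))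
      (fun x y hxy => hu.mul_left_cancel hxy)
    obtain ⟨Γ, h1, h2⟩ := h 1
    let re : ℂ ⊗[ℝ] A →ₗ[ℝ] A :=
      (TensorProduct.lid ℝ A).toLinearMap ∘ₗ LinearMap.rTensor A Complex.reLm
    refine ⟨M, hM, fun x => re (Γ x), fun n => ?_, fun φ => (hS _).2 ?_⟩
    · simp [h1, re, Algebra.TensorProduct.tmul_pow]
    · let ψ : ℂ ⊗[ℝ] A →ₗ[ℂ] ℂ :=
        (TensorProduct.AlgebraTensorModule.rid ℝ ℂ ℂ).toLinearMap ∘ₗ φ.baseChange ℂ
      have e : ∀ b, φ (re b) = (ψ b).re := fun b => by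
        induction b with
        | zero => simp
        | tmul c a => simp [re, ψ, mul_comm]
        | add x y hx hy => simp only [map_add, hx, hy, Complex.add_re]
      simp only [e]
      exact EP_re hL (h2 ψ)

end Vale.Agent.N188
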