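import Vale.Agent.N188.Plan

/-!
Extension of unipotent representations along a free abelian quotient (after Swan).
-/

universe u

namespace Vale.Agent.N188

namespace Sw

open Submodule

/-- The span of a finitely generated monoid is finite dimensional as soon as it is so modulo a
nilpotent subspace. -/
theorem fg_range {P : Type*} [Monoid P] (hP : Monoid.FG P) {B : Type*} [Ring B] [Algebra ℝ B]
    (Θ : P →* B) (J : Submodule ℝ B) {m : ℕ} (hJ : J ^ m = ⊥) {A : Type*} [AddCommGroup A]
    [Module ℝ A] [FiniteDimensional ℝ A] (e : B →ₗ[ℝ] A)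
    (he : ∀ b ∈ span ℝ (Set.range Θ), e b = 0 → b ∈ J) : (span ℝ (Set.range Θ)).FG := by
  obtain ⟨S, hS, hfin⟩ := Monoid.fg_iff.1 hP
  set R := span ℝ (Set.range Θ) with hR
  have hRR : R * R ≤ R := by
    rw [hR, span_mul_span]
    refine span_mono ?_
    rintro _ ⟨_, ⟨a, rfl⟩, _, ⟨b, rfl⟩, rfl⟩
    exact ⟨a * b, map_mul _ _ _⟩
  have h1 : (1 : B) ∈ R := subset_span ⟨1, map_one _⟩
  obtain ⟨V', hV'⟩ := Submodule.exists_isCompl (LinearMap.ker (e ∘ₗ R.subtype))
  have hfd : FiniteDimensional ℝ V' := by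
    refine FiniteDimensional.of_injective ((e ∘ₗ R.subtype) ∘ₗ V'.subtype) ?_
    refine (injective_iff_map_eq_zero _).2 fun x hx => Subtype.ext ?_
    exact Submodule.disjoint_def.1 hV'.disjoint x.1 hx x.2
  set V := V'.map R.subtype with hV
  have hVfg : V.FG := (Module.Finite.iff_fg.1 hfd).map _
  have hVR : V ≤ R := map_subtype_le _ _
  have hRV : ∀ b ∈ R, ∃ v ∈ V, b - v ∈ J := by
    intro b hb
    have : (⟨b, hb⟩ : R) ∈ LinearMap.ker (e ∘ₗ R.subtype) ⊔ V' := by
      rw [hV'.sup_eq_top]; exact mem_top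
    obtain ⟨y, hy, z, hz, hyz⟩ := mem_sup.1 this
    refine ⟨z, mem_map_of_mem hz, ?_⟩
    have : b - z = y := by
      rw [sub_eq_iff_eq_add]; exact (congrArg Subtype.val hyz).symm
    rw [this]
    exact he _ y.2 hy
  set G := span ℝ (Θ '' S) with hG
  have hGfg : G.FG := fg_span (hfin.image _)
  have hGR : G ≤ R := span_mono (Set.image_subset_range _ _)
  set U := (V ⊔ G * V) ⊔ span ℝ {1} with hU
  have hUfg : U.FG := (hVfg.sup (hGfg.mul hVfg)).sup (fg_span (Set.finite_singleton _))
  set T := U ⊓ J with hT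
  have hTfg : T.FG := by
    have := Module.Finite.iff_fg.2 hUfg
    exact Module.Finite.iff_fg.1 (Submodule.finiteDimensional_inf_left U J)
  have hUR : U ≤ R := sup_le (sup_le hVR ((mul_le_mul' hGR hVR).trans hRR))
    (span_le.2 (Set.singleton_subset_iff.2 h1))
  have hUX : U ≤ V ⊔ R * T := by
    intro b hb
    obtain ⟨v, hv, hj⟩ := hRV b (hUR hb)
    have h2 : b - v ∈ T := ⟨U.sub_mem hb (mem_sup_left (mem_sup_left hv)), hj⟩
    have h3 := add_mem_sup hv (mul_mem_mul h1 h2)
    simpa using h3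
  have hX : R ≤ V ⊔ R * T := by
    rw [hR, span_le]
    rintro _ ⟨p, rfl⟩
    have hp : p ∈ Submonoid.closure S := hS ▸ Submonoid.mem_top p
    induction hp using Submonoid.closure_induction_left with
    | one => rw [map_one]; exact hUX (mem_sup_right (subset_span rfl))
    | mul_left x hx y _ ih =>
      rw [map_mul]
      have h2 : G * (V ⊔ R * T) ≤ V ⊔ R * T := by
        rw [Submodule.mul_sup]
        refine sup_le ((le_sup_right.trans le_sup_left).trans hUX) (le_sup_of_le_right ?_)
        rw [← mul_assoc]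
        exact mul_le_mul' ((mul_le_mul' hGR le_rfl).trans hRR) le_rfl
      exact h2 (mul_mem_mul (subset_span ⟨x, hx, rfl⟩) ih)
  have key : ∀ j : ℕ, ∃ W : Submodule ℝ B, W.FG ∧ R ≤ W ⊔ R * J ^ j := by
    intro j
    induction j with
    | zero => exact ⟨⊥, fg_bot, by simp⟩
    | succ j ih =>
      obtain ⟨W, hW, h⟩ := ih
      refine ⟨V ⊔ W * T, hVfg.sup (hW.mul hTfg), hX.trans ?_⟩
      rw [sup_assoc]
      refine sup_le_sup_left ((mul_le_mul' h le_rfl).trans ?_) _
      rw [Submodule.sup_mul, pow_succ, mul_assoc]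
      exact sup_le_sup_left (mul_le_mul' le_rfl (mul_le_mul' le_rfl inf_le_right)) _
  obtain ⟨W, hW, h⟩ := key m
  rw [hJ, mul_bot, sup_bot_eq] at h
  have := Module.Finite.iff_fg.2 hW
  exact Module.Finite.iff_fg.1 (Submodule.finiteDimensional_of_le h)

/-- All products of `m` elements `ρ x - 1`, `x` in `M`, vanish. -/
def Uni {G A : Type*} [Group G] [Ring A] (ρ : G →* A) (M : Set G) (m : ℕ) : Prop :=
  ∀ l : List G, l.length = m → (∀ x ∈ l, x ∈ M) → (l.map fun x => ρ x - 1).prod = 0

theorem conj_prod {G A : Type*} [Group G] [Ring A] (ρ : G →* A) (h : G) (l : List G) :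
    ρ h * (l.map fun x => ρ x - 1).prod =
      ((l.map fun x => h * x * h⁻¹).map fun x => ρ x - 1).prod * ρ h := by
  induction l with
  | nil => simp
  | cons a l ih =>
    have : ρ h * (ρ a - 1) = (ρ (h * a * h⁻¹) - 1) * ρ h := by
      rw [mul_sub, sub_mul, ← map_mul, ← map_mul]; simp
    simp only [List.map_cons, List.prod_cons]
    rw [← mul_assoc, this, mul_assoc, ih, mul_assoc (ρ _ - 1)]

theorem pow_bot {G A : Type*} [Group G] [Ring A] [Algebra ℝ A] (ρ : G →* A) (M : Set G)
    (hM : ∀ h, ∀ x ∈ M, h * x * h⁻¹ ∈ M) {m : ℕ} (hm : Uni ρ M m) :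
    (span ℝ {a | ∃ x ∈ M, ∃ h, a = (ρ x - 1) * ρ h}) ^ m = ⊥ := by
  have key : ∀ j : ℕ, (span ℝ {a | ∃ x ∈ M, ∃ h, a = (ρ x - 1) * ρ h}) ^ j ≤
      span ℝ {a | ∃ l : List G, l.length = j ∧ (∀ x ∈ l, x ∈ M) ∧
        ∃ h, a = (l.map fun x => ρ x - 1).prod * ρ h} := by
    intro j
    induction j with
    | zero =>
      rw [pow_zero, Submodule.one_le]
      exact subset_span ⟨[], rfl, by simp, 1, by simp⟩
    | succ j ih =>
      rw [pow_succ']
      refine (mul_le_mul' le_rfl ih).trans ?_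
      rw [span_mul_span]
      refine span_mono ?_
      rintro _ ⟨_, ⟨x, hx, h, rfl⟩, _, ⟨l, hl, hlM, h', rfl⟩, rfl⟩
      refine ⟨x :: l.map fun y => h * y * h⁻¹, by simp [hl], ?_, h * h', ?_⟩
      · intro y hy
        rcases List.mem_cons.1 hy with rfl | hy
        · exact hx
        · obtain ⟨z, hz, rfl⟩ := List.mem_map.1 hy
          exact hM h z (hlM z hz)
      · simp only [List.map_cons, List.prod_cons]
        rw [map_mul, mul_assoc, ← mul_assoc (ρ h), conj_prod]
        simp only [mul_assoc]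
  refine le_bot_iff.1 ((key m).trans (span_le.2 ?_))
  rintro _ ⟨l, hl, hlM, h, rfl⟩
  rw [hm l hl hlM, zero_mul]
  exact zero_mem _

/-- One cyclic step. -/
theorem step {Γ : Type u} [Group Γ] (φ : Γ →* Multiplicative ℤ) (t : Γ)
    (ht : φ t = Multiplicative.ofAdd 1) (M : Subgroup Γ) (hc : ∀ g h, g * h * g⁻¹ * h⁻¹ ∈ M)
    (hle : M ≤ φ.ker) (hP : Group.FG φ.ker) {A : Type} [Ring A] [Algebra ℝ A]
    [FiniteDimensional ℝ A] (ρ : φ.ker →* A) {m : ℕ} (hm : Uni ρ {x | (x : Γ) ∈ M} m) :
    ∃ (A' : Type) (_ : Ring A') (_ : Algebra ℝ A') (_ : FiniteDimensional ℝ A') (ρ' : Γ →* A')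
      (π : A' →ₗ[ℝ] A), Uni ρ' M m ∧ ∀ p : φ.ker, π (ρ' p) = ρ p := by
  have hn : ∀ g, ∀ x ∈ M, g * x * g⁻¹ ∈ M := fun g x hx => by
    simpa using M.mul_mem (hc g x) hx
  have hs : ∀ g : Γ, g * t ^ (-(φ g).toAdd) ∈ φ.ker := fun g => by
    rw [MonoidHom.mem_ker, map_mul, map_zpow, ht]
    apply Multiplicative.toAdd.injective
    simp
  let s : Γ → φ.ker := fun g => ⟨_, hs g⟩
  let c : Γ → φ.ker →* φ.ker := fun g => (MulAut.conjNormal g : MulAut φ.ker).toMonoidHom
  have hcv : ∀ g p, (c g p : Γ) = g * p * g⁻¹ := fun g p => rfl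
  have hsp : ∀ (p : φ.ker) g, s (p * g) = p * s g := fun p g => by
    apply Subtype.ext
    have : φ p = 1 := p.2
    simp [s, this, mul_assoc]
  have hs1 : s 1 = 1 := Subtype.ext (by simp [s])
  have hsg : ∀ x g, s (x * g) = c x (s g) * s x := fun x g => by
    apply Subtype.ext
    simp only [s, Subgroup.coe_mul, hcv, map_mul, toAdd_mul, neg_add_rev, zpow_add]
    group
  let σ : Γ → A := fun g => ρ (s g)
  let T : Representation ℝ Γ (Γ → A) :=
    { toFun := fun g => LinearMap.funLeft ℝ A (· * g)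
      map_one' := by ext f x; simp
      map_mul' := fun g h => by ext f x; simp [mul_assoc] }
  have hT : ∀ g f x, T g f x = f (x * g) := fun g f x => rfl
  let W := span ℝ (Set.range fun g => T g σ)
  have hW : ∀ g, W ≤ W.comap (T g) := fun g => by
    refine span_le.2 ?_
    rintro _ ⟨h, rfl⟩
    exact subset_span ⟨g * h, by simp⟩
  let Θ : φ.ker →* (Γ → A) := MonoidHom.pi fun x => ρ.comp (c x)
  have hΘ : ∀ p x, Θ p x = ρ (c x p) := fun p x => rfl
  let J := span ℝ {a | ∃ x ∈ {x : φ.ker | (x : Γ) ∈ M}, ∃ h, a = (ρ x - 1) * ρ h}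
  have hJ : J ^ m = ⊥ := pow_bot ρ _ (fun h x hx => hn h x hx) hm
  have hfg : (span ℝ (Set.range Θ)).FG := by
    refine fg_range (Group.fg_iff_monoid_fg.1 hP) Θ (pi Set.univ fun _ => J) (m := m) ?_
      (LinearMap.proj 1) ?_
    · refine (Submodule.eq_bot_iff _).2 fun b hb => funext fun x => ?_
      have h1 := mem_map_of_mem (f := (Pi.evalAlgHom ℝ (fun _ : Γ => A) x).toLinearMap) hb
      rw [Submodule.map_pow] at h1
      have h2 : (pi Set.univ fun _ : Γ => J).map
          (Pi.evalAlgHom ℝ (fun _ : Γ => A) x).toLinearMap ≤ J := by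
        rintro _ ⟨y, hy, rfl⟩
        exact hy x trivial
      have h3 := pow_le_pow_left' h2 m h1
      rwa [hJ] at h3
    · intro b hb h0 x _
      have h0' : b 1 = 0 := h0
      suffices h : b x - b 1 ∈ J by simpa [h0'] using h
      clear h0 h0'
      · induction hb using span_induction with
        | mem _ h =>
          obtain ⟨p, rfl⟩ := h
          refine subset_span ⟨c x p * p⁻¹, hc x p, p, ?_⟩
          have : c 1 p = p := Subtype.ext (by simp [hcv])
          rw [hΘ, hΘ, this, sub_mul, ← map_mul]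
          simp
        | zero => simp
        | add y z _ _ h1 h2 =>
          have := J.add_mem h1 h2
          rwa [sub_add_sub_comm] at this
        | smul a y _ h1 =>
          have := J.smul_mem a h1
          rwa [smul_sub] at this
  have hWfd : FiniteDimensional ℝ W := by
    have := Module.Finite.iff_fg.2 (hfg.map (LinearMap.mulRight ℝ σ))
    refine Submodule.finiteDimensional_of_le
      (S₂ := (span ℝ (Set.range Θ)).map (LinearMap.mulRight ℝ σ)) (span_le.2 ?_)
    rintro _ ⟨g, rfl⟩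
    refine ⟨Θ (s g), subset_span ⟨_, rfl⟩, funext fun x => ?_⟩
    simp [hT, hΘ, σ, hsg]
  have hE : ∀ f ∈ W, ∀ (p : φ.ker) x, f (p * x) = ρ p * f x := by
    intro f hf p x
    induction hf using span_induction with
    | mem _ h =>
      obtain ⟨g, rfl⟩ := h
      simp [hT, σ, mul_assoc, hsp]
    | zero => simp
    | add y z _ _ h1 h2 => simp [h1, h2, mul_add]
    | smul a y _ h1 => simp [h1]
  let τ := T.subrepresentation W hW
  have hτ : ∀ g (w : W) x, (τ g w).1 x = w.1 (x * g) := fun g w x => rfl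
  let e := algEquivMatrix (Module.finBasis ℝ W)
  have hσ : σ ∈ W := subset_span ⟨1, by simp⟩
  refine ⟨_, inferInstance, inferInstance, inferInstance, (e : _ →* _).comp τ,
    (LinearMap.proj 1 : (Γ → A) →ₗ[ℝ] A) ∘ₗ W.subtype ∘ₗ
      (LinearMap.applyₗ (⟨σ, hσ⟩ : W)) ∘ₗ e.symm.toLinearMap, ?_, fun p => ?_⟩
  · intro l hl hlM
    have h1 : ∀ l : List φ.ker, ∀ (w : W) x, ((l.map fun p : φ.ker => τ p - 1).prod w).1 x =
        ((l.map (c x)).map fun p => ρ p - 1).prod * w.1 x := by
      intro l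
      induction l with
      | nil => simp
      | cons a l ih =>
        intro w x
        simp only [List.map_cons, List.prod_cons, Module.End.mul_apply, LinearMap.sub_apply,
          Module.End.one_apply, Submodule.coe_sub, Pi.sub_apply, hτ]
        have : x * a = c x a * x := by simp [hcv]
        rw [this, hE _ (Subtype.property _), ih, mul_assoc, sub_mul, one_mul]
    obtain ⟨l', rfl⟩ : ∃ l' : List φ.ker, l = l'.map Subtype.val :=
      ⟨l.pmap (fun x hx => ⟨x, hx⟩) fun x hx => hle (hlM x hx), by simp [List.map_pmap]⟩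
    have h2 : (l'.map fun p : φ.ker => τ p - 1).prod = 0 := by
      ext w x
      rw [h1, hm _ (by simpa using hl), zero_mul]
      · rfl
      · intro y hy
        obtain ⟨z, hz, rfl⟩ := List.mem_map.1 hy
        exact hn x z (hlM _ (List.mem_map_of_mem hz))
    have h3 := congrArg e h2
    rw [map_list_prod, map_zero] at h3
    rw [← h3]
    simp only [List.map_map, Function.comp_def]
    congr 1
    refine List.map_congr_left fun x _ => ?_
    exact ((map_sub e.toRingEquiv (τ x) 1).trans (by simp)).symm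
  · have := hsp p 1
    simp [hτ, σ, hs1] at this ⊢
    rw [this]

theorem uni_iff {N Γ A : Type*} [Group Γ] [Ring A] (ι : N → Γ) (ρ : Γ →* A) (m : ℕ) :
    Uni ρ (Set.range ι) m ↔
      ∀ x : Fin m → N, (List.ofFn fun i => ρ (ι (x i)) - 1).prod = 0 := by
  constructor
  · intro h x
    have := h (List.ofFn fun i => ι (x i)) (by simp) (by simp [List.mem_ofFn])
    simpa [List.map_ofFn, Function.comp_def] using this
  · intro h l hl hM
    subst hl
    choose x hx using fun i : Fin l.length => hM (l.get i) (List.get_mem _ _)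
    have := h x
    simp only [hx] at this
    rw [← this]
    congr 1
    conv_lhs => rw [← List.ofFn_get l, List.map_ofFn]
    rfl

theorem fg_ext {G H : Type*} [Group G] [Group H] (f : G →* H) (hf : Function.Surjective f)
    (h1 : f.ker.FG) (h2 : Group.FG H) : Group.FG G := by
  obtain ⟨S, hS, hSf⟩ := (Subgroup.fg_iff _).1 h1
  obtain ⟨U, hU, hUf⟩ := Group.fg_iff.1 h2
  obtain ⟨s, hs⟩ := hf.hasRightInverse
  refine Group.fg_iff.2 ⟨S ∪ s '' U, ?_, hSf.union (hUf.image _)⟩
  have h3 : f.ker ≤ Subgroup.closure (S ∪ s '' U) :=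
    hS ▸ Subgroup.closure_mono Set.subset_union_left
  have h4 : (Subgroup.closure (S ∪ s '' U)).map f = ⊤ := by
    rw [eq_top_iff, ← hU, Subgroup.closure_le]
    intro y hy
    exact ⟨s y, Subgroup.subset_closure (Or.inr ⟨y, hy, rfl⟩), hs y⟩
  rw [← Subgroup.comap_map_eq_self h3, h4, Subgroup.comap_top]

end Sw

theorem swan : SwanStmt.{u} := by
  intro N _ hN A₀ _ _ _ ρ₀ m _ hm k
  induction k with
  | zero =>
    intro Γ _ ι η hι _ hr
    have hs : Function.Surjective ι := fun g => by
      have : g ∈ ι.range := hr ▸ Subsingleton.elim _ _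
      exact this
    let e := MulEquiv.ofBijective ι ⟨hι, hs⟩
    have he : ∀ y, e.symm (ι y) = y := e.symm_apply_apply
    exact ⟨A₀, inferInstance, inferInstance, inferInstance, ρ₀.comp e.symm.toMonoidHom,
      LinearMap.id, fun x => by simpa [he] using hm x, fun y => by simp [he]⟩
  | succ k ih =>
    intro Γ _ ι η hι hη hr
    let φ : Γ →* Multiplicative ℤ :=
      (AddMonoidHom.toMultiplicative (Pi.evalAddMonoidHom (fun _ : Fin (k + 1) => ℤ) 0)).comp η
    have hφ : ∀ g, φ g = Multiplicative.ofAdd ((η g).toAdd 0) := fun g => rfl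
    obtain ⟨t, ht⟩ := hη (Multiplicative.ofAdd fun _ => 1)
    have hker : ∀ y, η (ι y) = 1 := fun y => by
      have : ι y ∈ η.ker := hr ▸ ⟨y, rfl⟩
      exact this
    have hle : ι.range ≤ φ.ker := by
      rintro _ ⟨y, rfl⟩
      rw [MonoidHom.mem_ker, hφ, hker]; rfl
    let ι' : N →* φ.ker := ι.codRestrict _ fun y => hle ⟨y, rfl⟩
    let η' : φ.ker →* Multiplicative (Fin k → ℤ) :=
      ((AddMonoidHom.toMultiplicative (LinearMap.funLeft ℤ ℤ Fin.succ).toAddMonoidHom).comp
        η).comp φ.ker.subtype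
    have hη' : ∀ p i, (η' p).toAdd i = (η p).toAdd i.succ := fun p i => rfl
    have hs : Function.Surjective η' := fun v => by
      obtain ⟨g, hg⟩ := hη (Multiplicative.ofAdd (Fin.cons 0 v.toAdd))
      refine ⟨⟨g, by rw [MonoidHom.mem_ker, hφ, hg]; rfl⟩, ?_⟩
      apply Multiplicative.toAdd.injective
      ext i
      rw [hη', hg]; rfl
    have hr' : ι'.range = η'.ker := by
      ext p
      constructor
      · rintro ⟨y, rfl⟩
        apply Multiplicative.toAdd.injective
        ext i
        rw [hη']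
        exact congrFun (congrArg Multiplicative.toAdd (hker y)) _
      · intro hp
        have : (p : Γ) ∈ ι.range := by
          rw [hr]
          apply Multiplicative.toAdd.injective
          ext i
          refine Fin.cases ?_ (fun i => ?_) i
          · exact congrArg Multiplicative.toAdd p.2
          · exact congrFun (congrArg Multiplicative.toAdd hp) i
        obtain ⟨y, hy⟩ := this
        exact ⟨y, Subtype.ext hy⟩
    obtain ⟨A, _, _, _, ρ, π, h1, h2⟩ :=
      ih φ.ker ι' η' (fun a b h => hι (congrArg Subtype.val h)) hs hr'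
    have hP : Group.FG φ.ker := Sw.fg_ext η' hs
      (hr' ▸ (Group.fg_iff_subgroup_fg _).1 inferInstance)
      (AddGroup.fg_iff_mul_fg.1 (Module.Finite.iff_addGroup_fg.1 inferInstance))
    have hU : Sw.Uni ρ {x | (x : Γ) ∈ ι.range} m := by
      have : {x : φ.ker | (x : Γ) ∈ ι.range} = Set.range ι' := by
        ext x
        exact ⟨fun ⟨y, hy⟩ => ⟨y, Subtype.ext hy⟩, fun ⟨y, hy⟩ => ⟨y, congrArg Subtype.val hy⟩⟩
      rw [this]
      exact (Sw.uni_iff _ _ _).2 h1
    obtain ⟨A', _, _, _, ρ', π', h3, h4⟩ := Sw.step φ t (by rw [hφ, ht]; rfl) ι.range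
      (fun g h => by rw [hr, MonoidHom.mem_ker]; simp) hle hP ρ hU
    exact ⟨A', inferInstance, inferInstance, inferInstance, ρ', π ∘ₗ π',
      (Sw.uni_iff _ _ _).1 h3, fun y => (congrArg π (h4 (ι' y))).trans (h2 y)⟩

end Vale.Agent.N188
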