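import Vale.Agent.N188.BuildB
import Vale.Agent.N188.Fund
import Vale.Agent.N188.Interp
import Vale.Agent.N188.Swan
import Vale.Agent.P188.H754.Malcev10

/-!
Virtually polycyclic groups are virtually uniform lattices in simply connected solvable Lie groups.
-/

set_option linter.unusedSectionVars false

open scoped Manifold ContDiff
open Topology Filter Set Metric

universe u

namespace Vale.Agent.N188

open Vale.Agent.P188 Vale.Agent.P188.H796

theorem Co.ext {A : Type*} [Ring A] [Algebra ℝ A] {S : Subalgebra ℝ (ℝ → ℝ)}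
    (hS : ∀ f ∈ S, (∀ n : ℕ, f n = 0) → f = 0) {F F' : ℝ → A} (h : Co S F) (h' : Co S F')
    (hn : ∀ n : ℕ, F n = F' n) (x : ℝ) : F x = F' x := by
  rw [← sub_eq_zero, ← Module.forall_dual_apply_eq_zero_iff ℝ]
  intro φ
  exact congrFun (hS _ ((h.sub h') φ) fun n => by simp [hn n]) x

variable {Γ : Type u} [Group Γ] {k : ℕ} {η : Γ →* Multiplicative (Fin k → ℤ)} {d n : ℕ}
  {D : MB η.ker d n} {A : Type} [Ring A] [Algebra ℝ A] [FiniteDimensional ℝ A] {R : RD D A}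
  {ρ : Γ →* A}

theorem EU_ι (hρ : ∀ y : η.ker, R.ρ y = ρ y) (y : η.ker) :
    EUh R (R.ι y) = ρ.toHomUnits y := Units.ext ((R.E_coord y).trans (hρ y))

theorem ker_mem (hρ : ∀ y : η.ker, R.ρ y = ρ y) {g : Γ} (hg : g ∈ η.ker) :
    ρ.toHomUnits g ∈ (EUh R).range := ⟨_, EU_ι hρ ⟨g, hg⟩⟩

theorem exists_flow (hρ : ∀ y : η.ker, R.ρ y = ρ y) (t : Fin k → Γ) :
    ∃ (Φ : Flow R k) (M : Fin k → ℕ), (∀ i, 0 < M i) ∧
      ∀ i (z : ℤ), Φ.γ i z = ρ.toHomUnits (t i ^ ((M i : ℤ) * z)) := by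
  obtain ⟨S, hS1, hS2, hS3, hS4, hS5⟩ := interp
  choose M hM γ hγ hγS using fun i => hS5 A (ρ (t i)) (ρ.toHomUnits (t i)).isUnit
  have hco : ∀ i, Co S (γ i) := hγS
  have htr : ∀ i c, Co S fun x => γ i (c + x) := fun i c φ => hS1 _ (hγS i φ) c
  have hadd : ∀ i x y, γ i (x + y) = γ i x * γ i y := by
    intro i x y
    have h1 : ∀ (m : ℕ) (y : ℝ), γ i (m + y) = γ i m * γ i y := fun m =>
      Co.ext hS4 (htr i m) ((Co.const _).mul (hco i)) fun l => by
        rw [← Nat.cast_add, hγ, hγ, hγ, mul_add, pow_add]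
    refine Co.ext (F := fun x => γ i (x + y)) hS4 ?_ ((hco i).mul (Co.const _))
      (fun m => h1 m y) x
    simpa only [add_comm] using htr i y
  have h0 : ∀ i, γ i 0 = 1 := fun i => by simpa using hγ i 0
  let γU : Fin k → ℝ → Aˣ := fun i x => ⟨γ i x, γ i (-x),
    by rw [← hadd, add_neg_cancel, h0], by rw [← hadd, neg_add_cancel, h0]⟩
  have hU : ∀ i, CoU S (γU i) := fun i => ⟨hco i, fun φ => hS2 _ (hγS i φ)⟩
  have hnat : ∀ i (m : ℕ), γU i m = ρ.toHomUnits (t i ^ (M i * m)) := fun i m =>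
    Units.ext ((hγ i m).trans (map_pow ρ _ _).symm)
  have hmem : ∀ w : ℝ → Aˣ, CoU S w → (∀ m : ℕ, w m ∈ (EUh R).range) →
      ∀ x, w x ∈ (EUh R).range := fun w hw hm x => (mem_range_iff R _).2
    (Co.ext hS4 (CoU.EU R fun i => hw.1 (R.ℓ i)).1 hw.1
      (fun m => (mem_range_iff R _).1 (hm m)) x)
  refine ⟨⟨γU, fun i x y => Units.ext (hadd i x y), fun i φ => hS3 _ (hγS i φ), ?_, ?_⟩, M, hM,
    fun i z => ?_⟩
  · rintro i x _ ⟨s, rfl⟩
    rw [mem_range_iff]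
    refine R.dens (f := fun s => R.E fun j => R.ℓ j ((γU i x * EUh R s * (γU i x)⁻¹ : Aˣ) : A))
      (g := fun s => ((γU i x * EUh R s * (γU i x)⁻¹ : Aˣ) : A)) (fun c hc => ?_)
      (fun c hc => ?_) (fun y => ?_) s
    · exact R.PC_E fun j => (((PC.const _).mul (R.PC_E hc)).mul (PC.const _)).map (R.ℓ j)
    · exact ((PC.const _).mul (R.PC_E hc)).mul (PC.const _)
    · refine (mem_range_iff R _).1 (hmem _ (((hU i).mul (CoU.const _)).mul (hU i).inv)
        (fun m => ?_) x)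
      rw [hnat, EU_ι hρ, ← map_inv, ← map_mul, ← map_mul]
      exact ker_mem hρ (η.normal_ker.conj_mem _ y.2 _)
  · intro i j x y
    refine hmem _ ((((CoU.const _).mul (hU j)).mul (CoU.const _)).mul (hU j).inv)
      (fun l => ?_) y
    refine hmem _ ((((hU i).mul (CoU.const _)).mul (hU i).inv).mul (CoU.const _))
      (fun m => ?_) x
    rw [hnat, hnat, ← map_inv, ← map_inv, ← map_mul, ← map_mul, ← map_mul]
    refine ker_mem hρ ?_
    rw [MonoidHom.mem_ker, map_mul, map_mul, map_mul, map_inv, map_inv, mul_inv_cancel_comm,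
      mul_inv_cancel]
  · obtain ⟨m, rfl | rfl⟩ := z.eq_nat_or_neg
    · rw [← Nat.cast_mul, zpow_natCast, Int.cast_natCast]
      exact hnat i m
    · rw [mul_neg, zpow_neg, map_inv, ← Nat.cast_mul, zpow_natCast, ← hnat, Int.cast_neg,
        Int.cast_natCast]
      exact Units.ext rfl

theorem exists_lattice (hη : Function.Surjective η) (hρ : ∀ y : η.ker, R.ρ y = ρ y) :
    ∃ Γ₁ : Subgroup Γ, Γ₁.FiniteIndex ∧ ∃ (G : SolvableLieGroup.{0}) (φ : Γ₁ →* G.carrier),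
      Function.Injective φ ∧ IsUniformLattice φ.range := by
  choose t ht using fun i : Fin k => hη (Multiplicative.ofAdd (Pi.single i 1))
  obtain ⟨Φ, M, hM, hγ⟩ := exists_flow hρ t
  have hM0 : ∀ i, (M i : ℝ) ≠ 0 := fun i => by exact_mod_cast (hM i).ne'
  let τ : (Fin k → ℤ) → Γ := fun z => (List.ofFn fun i => t i ^ ((M i : ℤ) * z i)).prod
  have hτ : ∀ z, (η (τ z)).toAdd = fun i => (M i : ℤ) * z i := by
    intro z
    funext j
    simp only [τ, map_list_prod, List.map_ofFn, List.prod_ofFn, Function.comp_apply, map_zpow,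
      ht, toAdd_prod, toAdd_zpow, toAdd_ofAdd, Finset.sum_apply, Pi.smul_apply]
    simp [Pi.single_apply]
  have hpr : ∀ z : Fin k → ℤ, Φ.pr (fun i => (z i : ℝ)) = ρ.toHomUnits (τ z) := by
    intro z
    simp only [Flow.pr, τ, map_list_prod, List.map_ofFn, hγ]
    rfl
  have : ∀ i, NeZero (M i) := fun i => ⟨(hM i).ne'⟩
  let χ : Γ →* Multiplicative (∀ i, ZMod (M i)) :=
    MonoidHom.mk' (fun g => Multiplicative.ofAdd fun i => (((η g).toAdd i : ℤ) : ZMod (M i)))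
      fun g h => by
        rw [← ofAdd_add]
        congr 1
        funext i
        simp
  have hχ : ∀ g, g ∈ χ.ker ↔ ∀ i, (M i : ℤ) ∣ (η g).toAdd i := fun g => by
    simp only [← ZMod.intCast_zmod_eq_zero_iff_dvd]
    exact funext_iff
  let y : Γ → Fin k → ℝ := fun g i => ((η g).toAdd i : ℝ) / M i
  have hy : ∀ g ∈ χ.ker, ∃ z : Fin k → ℤ, (y g = fun i => (z i : ℝ)) ∧ (τ z)⁻¹ * g ∈ η.ker := by
    intro g hg
    choose z hz using (hχ g).1 hg
    refine ⟨z, funext fun i => ?_, ?_⟩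
    · simp only [y, hz i]
      push_cast
      exact mul_div_cancel_left₀ _ (hM0 i)
    · rw [MonoidHom.mem_ker, map_mul, map_inv, inv_mul_eq_one]
      exact Multiplicative.toAdd.injective ((hτ z).trans (funext fun i => (hz i).symm))
  have hth : ∀ g ∈ χ.ker, Φ.th (Φ.pt (ρ.toHomUnits g) (y g)) = ρ.toHomUnits g := by
    intro g hg
    obtain ⟨z, h1, h2⟩ := hy g hg
    refine Φ.th_pt ?_
    rw [h1, hpr, ← map_inv, ← map_mul]
    exact ker_mem hρ h2
  let φ : χ.ker →* Φ.GG := MonoidHom.mk' (fun g => Φ.pt (ρ.toHomUnits g) (y g)) fun g h =>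
    Φ.ext (by rw [Φ.th_mul, hth _ g.2, hth _ h.2, hth _ (g * h).2, Subgroup.coe_mul, map_mul])
      (by
        rw [Φ.xc_mul, Φ.xc_pt, Φ.xc_pt, Φ.xc_pt]
        funext i
        simp [y, add_div])
  have hφ1 : ∀ g, Φ.th (φ g) = ρ.toHomUnits g := fun g => hth _ g.2
  have hφ2 : ∀ g, Φ.xc (φ g) = y g := fun g => Φ.xc_pt _ _
  refine ⟨χ.ker, inferInstance, Φ.lie, φ, ?_, fund Φ.GG φ.range ?_
    ((ee d k) ⁻¹' closedBall 0 1)
    ((ee d k).toHomeomorph.isCompact_preimage.2 (isCompact_closedBall 0 1)) fun p => ?_⟩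
  · refine (injective_iff_map_eq_one φ).2 fun g hg => ?_
    have h1 := hφ1 g
    have h2 := hφ2 g
    rw [hg, Φ.th_one] at h1
    rw [hg, Φ.xc_one] at h2
    have h3 : (g : Γ) ∈ η.ker := Multiplicative.toAdd.injective (funext fun i => by
      have h5 : (0 : ℝ) = ((η g).toAdd i : ℝ) / M i := congrFun h2 i
      rw [eq_comm, div_eq_zero_iff, Int.cast_eq_zero] at h5
      exact h5.resolve_right (hM0 i))
    have h4 : R.ι ⟨g, h3⟩ = R.ι 1 := R.toA_inj (by
      rw [R.toA_ι, R.toA_ι, map_one, hρ]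
      exact (congrArg Units.val h1).symm)
    have h6 := congrArg Subtype.val (R.ι_injective h4)
    exact Subtype.ext h6
  · refine discreteTopology_of_isOpen_singleton_one ?_
    rw [isOpen_iff_mem_nhds]
    rintro _ rfl
    have h1 : Tendsto (fun p : φ.range => ee d k (p : Φ.GG)) (𝓝 1) (𝓝 0) :=
      ((ee d k).continuous.comp continuous_subtype_val).tendsto' _ _ (map_zero (ee d k))
    filter_upwards [h1.eventually (ball_mem_nhds 0 one_pos)]
    rintro ⟨_, g, rfl⟩ hg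
    obtain ⟨z, h2, h3⟩ := hy g g.2
    have h4 : Φ.sc (φ g) = R.ι ⟨_, h3⟩ := Φ.sc_eq (by
      rw [hφ1, hφ2, h2, hpr, EU_ι hρ, ← map_mul, mul_inv_cancel_left])
    have h5 : ∀ (a : ℤ) (x : ℝ), x = a → ‖x‖ < 1 → x = 0 := by
      rintro a _ rfl h
      rw [Real.norm_eq_abs, ← Int.cast_abs, ← Int.cast_one, Int.cast_lt, Int.abs_lt_one_iff] at h
      rw [h, Int.cast_zero]
    rw [dist_zero_right] at hg
    refine Subtype.ext ((ee d k).injective ((Prod.ext (funext fun i => ?_)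
      (funext fun i => ?_)).trans (map_zero (ee d k)).symm))
    · exact h5 _ _ (congrFun h4 i)
        (((norm_le_pi_norm _ i).trans (norm_fst_le _)).trans_lt hg)
    · exact h5 _ _ (congrFun ((hφ2 g).trans h2) i)
        (((norm_le_pi_norm _ i).trans (norm_snd_le _)).trans_lt hg)
  · let z : Fin k → ℤ := fun i => -⌊Φ.xc p i⌋
    let g₁ : χ.ker := ⟨τ z, (hχ _).2 fun i => by rw [hτ]; exact dvd_mul_right _ _⟩
    obtain ⟨x, hx⟩ := R.exists_cube_right (Φ.sc (p * φ g₁))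
    have hx0 : (η x).toAdd = 0 := congrArg Multiplicative.toAdd x.2
    let g₂ : χ.ker := ⟨x, (hχ _).2 fun i => by rw [hx0]; exact dvd_zero _⟩
    have h1 : Φ.xc (p * φ g₁ * φ g₂) = Φ.xc (p * φ g₁) := by
      rw [Φ.xc_mul _ (φ g₂), hφ2]
      funext i
      simp [y, g₂, hx0]
    have h2 : Φ.sc (p * φ g₁ * φ g₂) = Φ.sc (p * φ g₁) * R.ι x := Φ.sc_eq (by
      rw [h1, Φ.th_mul, Φ.th_eq, hφ1, map_mul, EU_ι hρ, mul_assoc])
    have h3 : ∀ i, Φ.xc (p * φ g₁) i = Int.fract (Φ.xc p i) := fun i => by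
      rw [Φ.xc_mul, hφ2, Pi.add_apply, Int.fract, sub_eq_add_neg]
      congr 1
      simp only [y, g₁, hτ, z]
      push_cast
      exact mul_div_cancel_left₀ _ (hM0 i)
    refine ⟨φ g₁ * φ g₂, mul_mem ⟨_, rfl⟩ ⟨_, rfl⟩, ?_⟩
    rw [← mul_assoc]
    refine mem_closedBall_zero_iff.2 (max_le ((pi_norm_le_iff_of_nonneg zero_le_one).2
      fun i => ?_) ((pi_norm_le_iff_of_nonneg zero_le_one).2 fun i => ?_))
    · have h4 : (ee d k (p * φ g₁ * φ g₂ : Φ.GG)).1 i = (Φ.sc (p * φ g₁) * R.ι x : R.NR) i :=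
        congrFun h2 i
      rw [h4, Real.norm_eq_abs, abs_of_nonneg (hx i).1]
      exact (hx i).2.le
    · have h4 : (ee d k (p * φ g₁ * φ g₂ : Φ.GG)).2 i = Int.fract (Φ.xc p i) :=
        (congrFun h1 i).trans (h3 i)
      rw [h4, Real.norm_eq_abs, abs_of_nonneg (Int.fract_nonneg _)]
      exact (Int.fract_lt_one _).le

theorem lattice_of_virtPoly {H : Type u} [Group H] (h : IsVirtuallyPolycyclic H) :
    ∃ H₀ : Subgroup H, H₀.FiniteIndex ∧ ∃ (G : SolvableLieGroup.{0}) (Λ : Subgroup G.carrier),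
      IsUniformLattice Λ ∧ Nonempty (H₀ ≃* Λ) := by
  obtain ⟨Γ, _, ι, hι, hfin, k, η, hη, hfg, hnil, -, -, ⟨d, hd⟩, -⟩ := H754.virtPoly_Z0 h
  obtain ⟨n, ⟨D⟩⟩ := exists_MB d η.ker hd hnil
  obtain ⟨A, _, _, _, ρ, π, h1, h2⟩ := swan η.ker ((Group.fg_iff_subgroup_fg _).2 hfg) D.Alg
    D.R.ρ D.R.m (lt_trans Nat.zero_lt_one D.R.one_lt) D.R.nil k Γ η.ker.subtype η
    η.ker.subtype_injective hη η.ker.range_subtype
  let R : RD D A := ⟨ρ.comp η.ker.subtype, D.R.m, D.R.one_lt, h1, fun i => D.R.ℓ i ∘ₗ π,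
    fun i y => (congrArg (D.R.ℓ i) (h2 y)).trans (D.R.hℓ i y)⟩
  obtain ⟨Γ₁, hΓ₁, G, φ, hφ, hL⟩ := exists_lattice (R := R) (ρ := ρ) hη fun _ => rfl
  refine ⟨Γ₁.map ι, ⟨?_⟩, G, φ.range, hL,
    ⟨(Γ₁.equivMapOfInjective ι hι).symm.trans (MonoidHom.ofInjective hφ)⟩⟩
  rw [Subgroup.index_map_of_injective _ hι]
  exact mul_ne_zero hΓ₁.index_ne_zero hfin.index_ne_zero

end Vale.Agent.N188
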