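import Vale.Agent.N188.Plan

/-!
The Lie-Kolchin theorem for connected solvable topological groups.
-/

open scoped TensorProduct commutatorElement

universe u v

namespace Vale.Agent.N188

namespace Kol

section conn

variable {G : Type*} [Group G] [TopologicalSpace G] [IsTopologicalGroup G]

theorem preconn_closure {S : Set G} (hS : IsPreconnected S) (h1 : (1 : G) ∈ S) :
    IsPreconnected (Subgroup.closure S : Set G) := by
  refine isPreconnected_of_forall 1 fun y hy => ?_
  induction hy using Subgroup.closure_induction with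
  | mem x hx => exact ⟨S, Subgroup.subset_closure, h1, hx, hS⟩
  | one => exact ⟨{1}, by simp, rfl, rfl, isPreconnected_singleton⟩
  | mul x y _ _ ihx ihy =>
    obtain ⟨A, hA, a1, ax, hAc⟩ := ihx
    obtain ⟨B, hB, b1, by', hBc⟩ := ihy
    refine ⟨(fun p : G × G => p.1 * p.2) '' (A ×ˢ B), ?_, ⟨(1, 1), ⟨a1, b1⟩, one_mul 1⟩,
      ⟨(x, y), ⟨ax, by'⟩, rfl⟩, (hAc.prod hBc).image _ continuous_mul.continuousOn⟩
    rintro _ ⟨p, hp, rfl⟩
    exact Subgroup.mul_mem _ (hA hp.1) (hB hp.2)
  | inv x _ ihx =>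
    obtain ⟨A, hA, a1, ax, hAc⟩ := ihx
    refine ⟨(fun p : G => p⁻¹) '' A, ?_, ⟨1, a1, inv_one⟩, ⟨x, ax, rfl⟩,
      hAc.image _ continuous_inv.continuousOn⟩
    rintro _ ⟨p, hp, rfl⟩
    exact Subgroup.inv_mem _ (hA hp)

theorem preconn_derived [ConnectedSpace G] (k : ℕ) :
    IsPreconnected (derivedSeries G k : Set G) := by
  induction k with
  | zero => exact isPreconnected_univ
  | succ k ih =>
    rw [derivedSeries_succ, Subgroup.commutator_def]
    refine preconn_closure ?_ ⟨1, Subgroup.one_mem _, 1, Subgroup.one_mem _, by simp⟩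
    have e : {g : G | ∃ g₁ ∈ derivedSeries G k, ∃ g₂ ∈ derivedSeries G k, ⁅g₁, g₂⁆ = g}
        = (fun p : G × G => p.1 * p.2 * p.1⁻¹ * p.2⁻¹) ''
          ((derivedSeries G k : Set G) ×ˢ (derivedSeries G k : Set G)) := by
      ext g
      constructor
      · rintro ⟨a, ha, b, hb, rfl⟩
        exact ⟨(a, b), ⟨ha, hb⟩, rfl⟩
      · rintro ⟨p, hp, rfl⟩
        exact ⟨p.1, hp.1, p.2, hp.2, rfl⟩
    rw [e]
    exact (ih.prod ih).image _ (by fun_prop)

end conn

/-- commuting operators have a common eigenvector -/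
theorem common_eigen {V : Type*} [AddCommGroup V] [Module ℂ V] [FiniteDimensional ℂ V] {ι : Type*}
    (T : ι → Module.End ℂ V) (W : Submodule ℂ V) (hW : W ≠ ⊥)
    (hst : ∀ i, ∀ v ∈ W, T i v ∈ W) (hc : ∀ i j, ∀ v ∈ W, T i (T j v) = T j (T i v)) :
    ∃ v ∈ W, v ≠ 0 ∧ ∀ i, ∃ c : ℂ, T i v = c • v := by
  classical
  have hex : ∃ n, ∃ M : Submodule ℂ V, M ≤ W ∧ M ≠ ⊥ ∧ (∀ i, ∀ v ∈ M, T i v ∈ M) ∧
      Module.finrank ℂ M = n := ⟨_, W, le_rfl, hW, hst, rfl⟩
  obtain ⟨M, hMW, hM0, hMs, hMn⟩ := Nat.find_spec hex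
  obtain ⟨v, hv, hv0⟩ := (Submodule.ne_bot_iff M).1 hM0
  refine ⟨v, hMW hv, hv0, fun i => ?_⟩
  have : Nontrivial M := Submodule.nontrivial_iff_ne_bot.2 hM0
  obtain ⟨c, hc'⟩ := Module.End.exists_eigenvalue ((T i).restrict (hMs i))
  obtain ⟨w, hw⟩ := hc'.exists_hasEigenvector
  have hw1 : T i (w : V) = c • (w : V) := congrArg Subtype.val hw.apply_eq_smul
  have hw0 : (w : V) ≠ 0 := fun h => hw.2 (Subtype.ext h)
  set N : Submodule ℂ V := M ⊓ (T i).eigenspace c with hN
  have hNs : ∀ j, ∀ x ∈ N, T j x ∈ N := by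
    intro j x hx
    refine ⟨hMs j x hx.1, Module.End.mem_eigenspace_iff.2 ?_⟩
    rw [hc i j x (hMW hx.1), Module.End.mem_eigenspace_iff.1 hx.2, map_smul]
  have hN0 : N ≠ ⊥ := (Submodule.ne_bot_iff N).2
    ⟨w, ⟨w.2, Module.End.mem_eigenspace_iff.2 hw1⟩, hw0⟩
  have hle : Module.finrank ℂ M ≤ Module.finrank ℂ N := by
    rw [hMn]
    exact Nat.find_min' hex ⟨N, inf_le_left.trans hMW, hN0, hNs, rfl⟩
  have hNM : N = M := Submodule.eq_of_le_of_finrank_le inf_le_left hle
  have hvN : v ∈ N := hNM.symm ▸ hv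
  exact ⟨c, Module.End.mem_eigenspace_iff.1 hvN.2⟩

section rep

variable {G : Type*} [Group G] [TopologicalSpace G] [IsTopologicalGroup G] [ConnectedSpace G]

/-- the vectors fixed by a subgroup -/
def fixS {V : Type*} [AddCommGroup V] [Module ℂ V] (σ : Representation ℂ G V) (H : Subgroup G) :
    Submodule ℂ V where
  carrier := {v | ∀ d ∈ H, σ d v = v}
  add_mem' := fun ha hb d hd => by rw [map_add, ha d hd, hb d hd]
  zero_mem' := fun d _ => map_zero _
  smul_mem' := fun c _ ha d hd => by rw [map_smul, ha d hd]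

omit [TopologicalSpace G] [IsTopologicalGroup G] [ConnectedSpace G] in
theorem apply_conj {V : Type*} [AddCommGroup V] [Module ℂ V] (σ : Representation ℂ G V)
    (d g : G) (v : V) : σ d (σ g v) = σ g (σ (g⁻¹ * d * g) v) := by
  rw [← Module.End.mul_apply, ← Module.End.mul_apply, ← map_mul, ← map_mul]
  congr 2
  group

omit [TopologicalSpace G] [IsTopologicalGroup G] [ConnectedSpace G] in
theorem fixS_stable {V : Type*} [AddCommGroup V] [Module ℂ V] (σ : Representation ℂ G V)
    (H : Subgroup G) (hH : H.Normal) (g : G) : fixS σ H ≤ (fixS σ H).comap (σ g) := by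
  intro v hv d hd
  rw [apply_conj, hv _ (hH.conj_mem' d hd g)]

omit [TopologicalSpace G] [IsTopologicalGroup G] [ConnectedSpace G] in
theorem apply_ne_zero {V : Type*} [AddCommGroup V] [Module ℂ V] (σ : Representation ℂ G V)
    (g : G) {v : V} (hv : v ≠ 0) : σ g v ≠ 0 := by
  intro h
  apply hv
  have h1 : σ g⁻¹ (σ g v) = v := by
    rw [← Module.End.mul_apply, ← map_mul, inv_mul_cancel, map_one, Module.End.one_apply]
  rw [← h1, h, map_zero]

/-- one step down the derived series -/
theorem step {V : Type*} [AddCommGroup V] [Module ℂ V] [FiniteDimensional ℂ V]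
    (σ : Representation ℂ G V)
    (hσ : ∀ (f : Module.Dual ℂ V) (v : V), Continuous fun g => f (σ g v)) (k : ℕ)
    (h : fixS σ (derivedSeries G (k + 2)) ≠ ⊥) : fixS σ (derivedSeries G (k + 1)) ≠ ⊥ := by
  classical
  set D := derivedSeries G (k + 1) with hD
  have hDn : D.Normal := derivedSeries_normal G (k + 1)
  obtain ⟨v, hvW, hv0, hv⟩ := common_eigen (fun d : D => σ d) _ h
    (fun d w hw => fixS_stable σ _ (derivedSeries_normal G (k + 2)) d hw) (by
      intro a b w hw
      have h1 : ⁅(b : G)⁻¹, (a : G)⁻¹⁆ ∈ derivedSeries G (k + 2) :=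
        Subgroup.commutator_mem_commutator (D.inv_mem b.2) (D.inv_mem a.2)
      have h2 := hw _ h1
      have e : (b : G) * a = a * b * ⁅(b : G)⁻¹, (a : G)⁻¹⁆ := by
        rw [commutatorElement_def]; group
      change σ a (σ b w) = σ b (σ a w)
      rw [← Module.End.mul_apply (σ b), ← map_mul, e, map_mul, map_mul, Module.End.mul_apply,
        Module.End.mul_apply, h2])
  obtain ⟨f, hf⟩ := Module.Projective.exists_dual_eq_one ℂ hv0
  set χ : G → ℂ := fun d => f (σ d v) with hχ
  have hχc : Continuous χ := hσ f v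
  have hχv : ∀ d ∈ D, σ d v = χ d • v := by
    intro d hd
    obtain ⟨c, hc⟩ := hv ⟨d, hd⟩
    have hc' : σ d v = c • v := hc
    have : χ d = c := by
      simp only [hχ]
      rw [hc', map_smul, hf, smul_eq_mul, mul_one]
    rw [this, hc']
  have hχ1 : χ 1 = 1 := by simp only [hχ, map_one, Module.End.one_apply, hf]
  have hconj : ∀ d ∈ D, ∀ g, χ (g⁻¹ * d * g) = χ d := by
    intro d hd g
    have h1 : (fun g : G => χ (g⁻¹ * d * g)) g = (fun g : G => χ (g⁻¹ * d * g)) 1 := by
      refine isPreconnected_univ.constant_of_mapsTo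
        (Module.End.finite_hasEigenvalue (σ d)).isDiscrete
        (hχc.comp (f := fun g : G => g⁻¹ * d * g) (by fun_prop)).continuousOn (fun x _ => ?_)
        (Set.mem_univ _) (Set.mem_univ _)
      refine Module.End.hasEigenvalue_of_hasEigenvector
        (x := σ x v) ⟨Module.End.mem_eigenspace_iff.2 ?_, apply_ne_zero σ x hv0⟩
      rw [apply_conj, hχv _ (hDn.conj_mem' d hd x), map_smul]
      rfl
    simpa using h1
  let U : Submodule ℂ V :=
    { carrier := {w | ∀ d ∈ D, σ d w = χ d • w}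
      add_mem' := fun ha hb d hd => by rw [map_add, ha d hd, hb d hd, smul_add]
      zero_mem' := fun d _ => by rw [map_zero, smul_zero]
      smul_mem' := fun c _ ha d hd => by rw [map_smul, ha d hd, smul_comm] }
  have hU : ∀ g, U ≤ U.comap (σ g) := by
    intro g w hw d hd
    rw [apply_conj, hw _ (hDn.conj_mem' d hd g), hconj d hd g, map_smul]
  have hvU : v ∈ U := hχv
  have hU0 : Nontrivial U := Submodule.nontrivial_iff_ne_bot.2
    ((Submodule.ne_bot_iff U).2 ⟨v, hvU, hv0⟩)
  have hr : Module.finrank ℂ U ≠ 0 := Module.finrank_pos.ne'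
  set δ : G →* ℂ := (LinearMap.det : (U →ₗ[ℂ] U) →* ℂ).comp (σ.subrepresentation U hU) with hδ
  have hpow : ∀ d ∈ D, χ d ^ Module.finrank ℂ U = 1 := by
    intro d hd
    have h1 : d ∈ commutator G := derivedSeries_antitone G (Nat.le_add_left 1 k) hd
    have h2 : δ.toHomUnits d = 1 := Abelianization.commutator_subset_ker δ.toHomUnits h1
    have h3 : δ d = 1 := by
      have := congrArg Units.val h2
      simpa using this
    have h4 : σ.subrepresentation U hU d = χ d • LinearMap.id := by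
      ext w
      exact w.2 d hd
    rw [hδ, MonoidHom.comp_apply, h4, LinearMap.det_smul, LinearMap.det_id, mul_one] at h3
    exact h3
  have hone : ∀ d ∈ D, χ d = 1 := by
    intro d hd
    rw [← hχ1]
    have hfin : {z : ℂ | z ^ Module.finrank ℂ U = 1}.Finite := by
      refine (Polynomial.nthRoots (Module.finrank ℂ U) (1 : ℂ)).toFinset.finite_toSet.subset ?_
      intro z hz
      rw [Finset.mem_coe, Multiset.mem_toFinset, Polynomial.mem_nthRoots (Nat.pos_of_ne_zero hr)]
      exact hz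
    exact (preconn_derived (k + 1)).constant_of_mapsTo hfin.isDiscrete hχc.continuousOn
      (fun x hx => hpow x hx) hd D.one_mem
  refine (Submodule.ne_bot_iff _).2 ⟨v, fun d hd => ?_, hv0⟩
  rw [hχv d hd, hone d hd, one_smul]

theorem fix_ne_bot [Group.IsSolvable G] {V : Type*} [AddCommGroup V] [Module ℂ V]
    [FiniteDimensional ℂ V] [Nontrivial V] (σ : Representation ℂ G V)
    (hσ : ∀ (f : Module.Dual ℂ V) (v : V), Continuous fun g => f (σ g v)) :
    fixS σ (commutator G) ≠ ⊥ := by
  obtain ⟨n, hn⟩ := Group.IsSolvable.solvable (G := G)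
  have key : ∀ j k, fixS σ (derivedSeries G (k + j + 1)) ≠ ⊥ →
      fixS σ (derivedSeries G (k + 1)) ≠ ⊥ := by
    intro j
    induction j with
    | zero => exact fun k h => h
    | succ j ih => exact fun k h => ih k (step σ hσ (k + j) h)
  refine key n 0 ?_
  obtain ⟨v, hv⟩ := exists_ne (0 : V)
  refine (Submodule.ne_bot_iff _).2 ⟨v, fun d hd => ?_, hv⟩
  have h1 : d ∈ derivedSeries G n := derivedSeries_antitone G (by omega) hd
  rw [hn, Subgroup.mem_bot] at h1
  rw [h1, map_one, Module.End.one_apply]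

theorem unipotent [Group.IsSolvable G] (n : ℕ) : ∀ (V : Type v) [AddCommGroup V] [Module ℂ V]
    [FiniteDimensional ℂ V] (σ : Representation ℂ G V),
    (∀ (f : Module.Dual ℂ V) (v : V), Continuous fun g => f (σ g v)) →
    Module.finrank ℂ V ≤ n → ∀ l : List G, l.length = n → (∀ x ∈ l, x ∈ commutator G) →
      (l.map fun x => σ x - 1).prod = 0 := by
  induction n with
  | zero =>
    intro V _ _ _ σ _ hn l _ _
    have : Subsingleton V := Module.finrank_zero_iff.1 (Nat.le_zero.1 hn)
    exact Subsingleton.elim _ _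
  | succ n ih =>
    intro V _ _ _ σ hσ hn l hl hc
    rcases subsingleton_or_nontrivial V with hV | hV
    · exact Subsingleton.elim _ _
    set W := fixS σ (commutator G) with hW
    have hW0 : W ≠ ⊥ := fix_ne_bot σ hσ
    have hst : ∀ g, W ≤ W.comap (σ g) := fixS_stable σ _ inferInstance
    have hq : ∀ g v, σ.quotient W hst g (W.mkQ v) = W.mkQ (σ g v) := fun g v => rfl
    have hdim : Module.finrank ℂ (V ⧸ W) ≤ n := by
      have h1 := W.finrank_quotient_add_finrank
      have : Nontrivial W := Submodule.nontrivial_iff_ne_bot.2 hW0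
      have h2 : 0 < Module.finrank ℂ W := Module.finrank_pos
      omega
    obtain ⟨x, l', rfl⟩ : ∃ x l', l = x :: l' := by
      cases l with
      | nil => simp at hl
      | cons x l' => exact ⟨x, l', rfl⟩
    have h1 := ih (V ⧸ W) (σ.quotient W hst) (by
      intro f w
      obtain ⟨v, rfl⟩ := W.mkQ_surjective w
      exact hσ (f.comp W.mkQ) v) hdim l' (by simpa using hl)
      (fun y hy => hc y (List.mem_cons_of_mem _ hy))
    have h2 : ∀ (L : List G) (v : V), W.mkQ ((L.map fun x => σ x - 1).prod v)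
        = (L.map fun x => σ.quotient W hst x - 1).prod (W.mkQ v) := by
      intro L
      induction L with
      | nil => intro v; rfl
      | cons y L ihL =>
        intro v
        rw [List.map_cons, List.map_cons, List.prod_cons, List.prod_cons, Module.End.mul_apply,
          Module.End.mul_apply, ← ihL, LinearMap.sub_apply, LinearMap.sub_apply, map_sub, hq]
        rfl
    ext v
    have h3 : (l'.map fun x => σ x - 1).prod v ∈ W := by
      rw [← Submodule.Quotient.mk_eq_zero, ← Submodule.mkQ_apply, h2, h1, LinearMap.zero_apply]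
    rw [List.map_cons, List.prod_cons, Module.End.mul_apply, LinearMap.sub_apply,
      h3 x (hc x List.mem_cons_self), Module.End.one_apply, sub_self, LinearMap.zero_apply]

end rep

end Kol

/-- **Lie-Kolchin** -/
theorem kolchin : KolchinStmt.{u, v} := by
  intro G _ _ _ _ _ E _ _ _ ρ hρ
  refine ⟨Kol.preconn_derived 1, Module.finrank ℂ (ℂ ⊗[ℝ] E), fun l hl hc => ?_⟩
  let Φ : (E →L[ℝ] E) →+* Module.End ℂ (ℂ ⊗[ℝ] E) :=
    (Module.End.baseChangeHom ℝ ℂ E).toRingHom.comp ContinuousLinearMap.toLinearMapRingHom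
  have hΦ : ∀ T : E →L[ℝ] E, Φ T = (T : E →ₗ[ℝ] E).baseChange ℂ := fun T => rfl
  let σ : Representation ℂ G (ℂ ⊗[ℝ] E) := Φ.toMonoidHom.comp ρ
  have hσ : ∀ g, σ g = Φ (ρ g) := fun g => rfl
  have hcont : ∀ (f : Module.Dual ℂ (ℂ ⊗[ℝ] E)) (v : ℂ ⊗[ℝ] E),
      Continuous fun g => f (σ g v) := by
    intro f v
    let L : (E →L[ℝ] E) →ₗ[ℝ] ℂ :=
      { toFun := fun T => f (Φ T v)
        map_add' := fun S T => by rw [map_add, LinearMap.add_apply, map_add]
        map_smul' := fun c T => by
          rw [hΦ, hΦ, ContinuousLinearMap.toLinearMap_smul, LinearMap.baseChange_smul,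
            LinearMap.smul_apply, RingHom.id_apply, LinearMap.map_smul_of_tower] }
    exact L.continuous_of_finiteDimensional.comp hρ
  have h1 := Kol.unipotent _ (ℂ ⊗[ℝ] E) σ hcont le_rfl l hl hc
  have h2 : Φ (l.map fun x => ρ x - 1).prod = (l.map fun x => σ x - 1).prod := by
    rw [map_list_prod, List.map_map]
    congr 2
    funext x
    simp only [Function.comp_apply, map_sub, map_one, hσ]
  rw [h1, hΦ] at h2
  ext e
  have h3 := LinearMap.congr_fun h2 ((1 : ℂ) ⊗ₜ[ℝ] e)
  rw [LinearMap.baseChange_tmul, LinearMap.zero_apply,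
    Module.FaithfullyFlat.one_tmul_eq_zero_iff] at h3
  exact h3

end Vale.Agent.N188
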