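import Vale.Agent.N188.Defs

/-!
Statements of the independent blocks.
-/

open scoped ContDiff

universe u v

namespace Vale.Agent.N188

/-- Lie-Kolchin: the commutator subgroup of a connected solvable group acts unipotently. -/
def KolchinStmt : Prop :=
  ∀ (G : Type u) [Group G] [TopologicalSpace G] [IsTopologicalGroup G] [ConnectedSpace G]
    [Group.IsSolvable G] (E : Type v) [NormedAddCommGroup E] [NormedSpace ℝ E] [FiniteDimensional ℝ E]
    (ρ : G →* (E →L[ℝ] E)), Continuous ρ →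
    IsPreconnected (commutator G : Set G) ∧
    ∃ m : ℕ, ∀ l : List G, l.length = m → (∀ x ∈ l, x ∈ commutator G) →
      (l.map fun x => ρ x - 1).prod = 0

/-- Swan: a unipotent representation of `N` extends, up to a linear projection, to an extension
of `N` by a free abelian group. -/
def SwanStmt : Prop :=
  ∀ (N : Type u) [Group N], Group.FG N →
    ∀ (A₀ : Type) [Ring A₀] [Algebra ℝ A₀] [FiniteDimensional ℝ A₀] (ρ₀ : N →* A₀) (m : ℕ),
    0 < m → (∀ x : Fin m → N, (List.ofFn fun i => ρ₀ (x i) - 1).prod = 0) →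
    ∀ (k : ℕ) (Γ : Type u) [Group Γ] (ι : N →* Γ) (η : Γ →* Multiplicative (Fin k → ℤ)),
    Function.Injective ι → Function.Surjective η → ι.range = η.ker →
    ∃ (A : Type) (_ : Ring A) (_ : Algebra ℝ A) (_ : FiniteDimensional ℝ A) (ρ : Γ →* A)
      (π : A →ₗ[ℝ] A₀), (∀ x : Fin m → N, (List.ofFn fun i => ρ (ι (x i)) - 1).prod = 0) ∧
      ∀ y, π (ρ (ι y)) = ρ₀ y

/-- Exponential polynomials: an algebra of smooth functions determined by their values on the
natural numbers, which interpolates a power of any invertible element. -/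
def InterpStmt : Prop :=
  ∃ S : Subalgebra ℝ (ℝ → ℝ),
    (∀ f ∈ S, ∀ c : ℝ, (fun x => f (c + x)) ∈ S) ∧ (∀ f ∈ S, (fun x => f (-x)) ∈ S) ∧
    (∀ f ∈ S, ContDiff ℝ ∞ f) ∧ (∀ f ∈ S, (∀ n : ℕ, f n = 0) → f = 0) ∧
    ∀ (A : Type) [Ring A] [Algebra ℝ A] [FiniteDimensional ℝ A] (g : A), IsUnit g →
      ∃ M : ℕ, 0 < M ∧ ∃ γ : ℝ → A, (∀ n : ℕ, γ n = g ^ (M * n)) ∧
        ∀ φ : A →ₗ[ℝ] ℝ, (fun x => φ (γ x)) ∈ S

/-- A discrete cocompact subgroup is a uniform lattice. -/
def FundStmt : Prop :=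
  ∀ (G : Type u) [Group G] [TopologicalSpace G] [IsTopologicalGroup G] [T2Space G]
    [LocallyCompactSpace G] [SecondCountableTopology G] (Λ : Subgroup G), DiscreteTopology Λ →
    ∀ K : Set G, IsCompact K → (∀ g : G, ∃ x ∈ Λ, g * x ∈ K) → IsUniformLattice Λ

/-- A discrete cocompact subgroup of a connected group is finitely generated. -/
def FGStmt : Prop :=
  ∀ (G : Type u) [Group G] [TopologicalSpace G] [IsTopologicalGroup G] [T2Space G]
    [LocallyCompactSpace G] [ConnectedSpace G] (Λ : Subgroup G), DiscreteTopology Λ →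
    CompactSpace (G ⧸ Λ) → Group.FG Λ

end Vale.Agent.N188
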