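import Vale.Agent.N188.LieB
import Vale.Agent.N188.Plan

/-!
Finitely generated discrete subgroups of connected solvable Lie groups are polycyclic.
-/

universe u

namespace Vale.Agent.N188

open Vale.Agent.P228Z Vale.Agent.P228Z.GMap Vale.Agent.P188 Topology Filter Set Metric
open scoped Manifold ContDiff

theorem pcs_of_discrete (hK : KolchinStmt.{u, u}) {G : Type u} [Group G] [TopologicalSpace G]
    [IsTopologicalGroup G] [T2Space G] [LocallyCompactSpace G] [ConnectedSpace G]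
    [Group.IsSolvable G] (hn : ∃ W ∈ 𝓝 (1 : G), ∀ H : Subgroup G, (H : Set G) ⊆ W → H = ⊥)
    (Λ : Subgroup G) [DiscreteTopology Λ] (hfg : Group.FG Λ) : PCS Λ := by
  obtain ⟨Γ⟩ := exists_gmap hn
  let D : EData Γ Γ.lie := ⟨Γ.lie.subtypeₗᵢ, fun X v h => ⟨⟨v, X, h⟩, rfl⟩, fun w => w.2⟩
  have : FiniteDimensional ℝ Γ.lie := D.finiteDimensional
  have : CompleteSpace Γ.lie := FiniteDimensional.complete ℝ Γ.lie
  let ρ : G →* (Γ.lie →L[ℝ] Γ.lie) := ⟨⟨D.Ad, D.Ad_one⟩, D.Ad_mul⟩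
  obtain ⟨hpc, m, hm⟩ := hK G Γ.lie ρ D.Ad_continuous
  let F : ℕ → Submodule ℝ Γ.lie := fun i =>
    { carrier := {v | ∀ l : List G, l.length = i → (∀ x ∈ l, x ∈ commutator G) →
        (l.map fun x => ρ x - 1).prod v = 0}
      zero_mem' := fun l _ _ => map_zero _
      add_mem' := fun ha hb l h1 h2 => by rw [map_add, ha l h1 h2, hb l h1 h2, add_zero]
      smul_mem' := fun c v hv l h1 h2 => by rw [map_smul, hv l h1 h2, smul_zero] }
  have h0 : F 0 = ⊥ := by
    rw [eq_bot_iff]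
    intro v hv
    simpa using hv [] rfl (by simp)
  have hFm : F m = ⊤ := by
    rw [eq_top_iff]
    intro v _ l h1 h2
    rw [hm l h1 h2]; rfl
  let U : Subgroup G := (commutator G).topologicalClosure
  have hU : IsClosed (U : Set G) := Subgroup.isClosed_topologicalClosure _
  have hF : ∀ i, ∀ g ∈ U, ∀ v ∈ F (i + 1), D.Ad g v - v ∈ F i := by
    intro i g hg v hv
    have hc : IsClosed {g : G | D.Ad g v - v ∈ F i} :=
      (Submodule.closed_of_finiteDimensional (F i)).preimage (f := fun g : G => D.Ad g v - v)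
        ((D.Ad_continuous.clm_apply continuous_const).sub continuous_const)
    refine hc.closure_subset_iff.2 (fun x hx l h1 h2 => ?_) hg
    have := hv (l ++ [x]) (by simp [h1]) (fun y hy => by
      rcases List.mem_append.1 hy with h | h
      · exact h2 y h
      · rw [List.mem_singleton.1 h]; exact hx)
    rw [List.map_append, List.prod_append] at this
    simpa [ρ] using this
  have hUc : U ≤ cc D U := preconn_le hU hpc.closure (one_mem U) subset_rfl
  have hΛ : IsClosed (Λ : Set G) := Subgroup.isClosed_of_discrete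
  have hB : IsClosed ((Λ ⊓ U : Subgroup G) : Set G) := hΛ.inter hU
  have h1 := nilp h0 hFm hF _ U (Λ ⊓ U) hU hB le_rfl hUc inf_le_right le_rfl
  have h2 : cc D (Λ ⊓ U) ≤ ⊥ := by
    rw [cc, Subgroup.closure_le]
    rintro _ ⟨v, hv, rfl⟩
    have h3 := fun t => ((mem_LA hB).1 hv t).1
    have h4 : Continuous fun t : ℝ => (⟨D.ex (t • v), h3 t⟩ : Λ) :=
      (D.isOP_ex v).continuous.subtype_mk _
    have h5 := congrArg Subtype.val
      (PreconnectedSpace.constant inferInstance h4 (x := 1) (y := 0))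
    simpa [D.ex_zero] using h5
  have h3 : PCS (Λ ⊓ U) := h1 _ le_rfl (PCS.bot.le (inf_le_right.trans h2))
  have hUn : U.Normal := Subgroup.is_normal_topologicalClosure _
  let f : Λ →* G ⧸ U := (QuotientGroup.mk' U).comp Λ.subtype
  have h4 : PCS (⊤ : Subgroup f.range) := by
    refine pcs_of_fg ?_ inferInstance
    rintro ⟨_, x, rfl⟩ ⟨_, y, rfl⟩
    refine Subtype.ext ?_
    show f x * f y = f y * f x
    rw [← map_mul, ← map_mul]
    refine QuotientGroup.eq.2 (Subgroup.le_topologicalClosure _ ?_)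
    have := Subgroup.commutator_mem_commutator (Subgroup.mem_top (y : G)⁻¹)
      (Subgroup.mem_top (x : G)⁻¹)
    simpa [commutatorElement_def, mul_assoc, commutator_def] using this
  exact RP.of_hom (N := U) le_rfl f.rangeRestrict (fun x hx =>
    (QuotientGroup.eq_one_iff _).1 (congrArg Subtype.val hx)) h4 (fun _ _ => trivial) Λ le_rfl h3

theorem nss_of_lie {E : Type*} [NormedAddCommGroup E] [NormedSpace ℝ E] {G : Type*} [Group G]
    [TopologicalSpace G] [ChartedSpace E G] [LieGroup 𝓘(ℝ, E) ∞ G] :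
    ∃ W ∈ 𝓝 (1 : G), ∀ H : Subgroup G, (H : Set G) ⊆ W → H = ⊥ := by
  let φ := extChartAt 𝓘(ℝ, E) (1 : G)
  have h1 : (1 : G) ∈ φ.source := mem_extChartAt_source 1
  have hsrc : φ.source ∈ 𝓝 (1 : G) := extChartAt_source_mem_nhds 1
  have htg : φ.target ∈ 𝓝 (φ 1) := extChartAt_target_mem_nhds 1
  have hs1 : φ.symm (φ 1) = 1 := φ.left_inv h1
  have hsym : ContMDiffAt 𝓘(ℝ, E) 𝓘(ℝ, E) ∞ φ.symm (φ 1) :=
    (contMDiffOn_extChartAt_symm (1 : G)).contMDiffAt htg
  let μ : E × E → E := fun p => φ (φ.symm p.1 * φ.symm p.2)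
  have hμ : ContDiffAt ℝ ∞ μ (φ 1, φ 1) := by
    rw [← contMDiffAt_iff_contDiffAt]
    have a1 : ContMDiffAt 𝓘(ℝ, E × E) 𝓘(ℝ, E) ∞ (fun p : E × E => φ.symm p.1) (φ 1, φ 1) :=
      ContMDiffAt.comp (g := φ.symm) _ hsym contDiff_fst.contMDiff.contMDiffAt
    have a2 : ContMDiffAt 𝓘(ℝ, E × E) 𝓘(ℝ, E) ∞ (fun p : E × E => φ.symm p.2) (φ 1, φ 1) :=
      ContMDiffAt.comp (g := φ.symm) _ hsym contDiff_snd.contMDiff.contMDiffAt
    refine ContMDiffAt.comp (g := φ) _ ?_ (a1.mul a2)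
    simp only [hs1, mul_one]
    exact contMDiffAt_extChartAt
  have hd := (hμ.differentiableAt (by simp)).hasFDerivAt
  set L := fderiv ℝ μ (φ 1, φ 1)
  have hL1 : L.comp (ContinuousLinearMap.inl ℝ E E) = ContinuousLinearMap.id ℝ E := by
    have a1 := HasFDerivAt.comp (f := fun e => (e, φ 1)) (φ 1) hd
      (hasFDerivAt_prodMk_left (𝕜 := ℝ) (φ 1) (φ 1))
    refine a1.unique ((hasFDerivAt_id (φ 1)).congr_of_eventuallyEq ?_)
    filter_upwards [htg] with x hx
    show φ (φ.symm x * φ.symm (φ 1)) = x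
    rw [hs1, mul_one, φ.right_inv hx]
  have hL2 : L.comp (ContinuousLinearMap.inr ℝ E E) = ContinuousLinearMap.id ℝ E := by
    have a1 := hd.comp (φ 1) (hasFDerivAt_prodMk_right (𝕜 := ℝ) (φ 1) (φ 1))
    refine a1.unique ((hasFDerivAt_id (φ 1)).congr_of_eventuallyEq ?_)
    filter_upwards [htg] with x hx
    show φ (φ.symm (φ 1) * φ.symm x) = x
    rw [hs1, one_mul, φ.right_inv hx]
  have hL : ∀ u : E, L (u, u) = u + u := fun u => by
    have a1 : L (u, 0) = u := DFunLike.congr_fun hL1 u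
    have a2 : L (0, u) = u := DFunLike.congr_fun hL2 u
    have a3 : ((u, u) : E × E) = (u, 0) + (0, u) := by simp
    rw [a3, map_add, a1, a2]
  have hq := hd.isLittleO.bound (show (0 : ℝ) < 1 / 2 by norm_num)
  have hφ : Tendsto φ (𝓝 1) (𝓝 (φ 1)) := continuousAt_extChartAt 1
  have hW : ∀ᶠ g in 𝓝 (1 : G), g ∈ φ.source ∧ ‖φ g - φ 1‖ ≤ 1 ∧
      3 / 2 * ‖φ g - φ 1‖ ≤ ‖φ (g * g) - φ 1‖ := by
    filter_upwards [hsrc, hφ.eventually (closedBall_mem_nhds (φ 1) one_pos),
      (hφ.prodMk_nhds hφ).eventually hq] with g a1 a2 a3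
    refine ⟨a1, by rwa [← dist_eq_norm], ?_⟩
    have e1 : μ (φ g, φ g) = φ (g * g) := by simp only [μ, φ.left_inv a1]
    have e2 : μ (φ 1, φ 1) = φ 1 := by simp only [μ, hs1, mul_one]
    rw [e1, e2, Prod.mk_sub_mk, hL, Prod.norm_mk, max_self] at a3
    have a4 := norm_sub_norm_le (φ g - φ 1 + (φ g - φ 1)) (φ (g * g) - φ 1)
    rw [norm_sub_rev (_ + _), ← two_smul ℝ, norm_smul] at a4
    rw [← two_smul ℝ] at a3
    simp only [Real.norm_ofNat] at a4
    linarith
  refine ⟨_, hW, fun H hH => ?_⟩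
  rw [eq_bot_iff]
  intro g hg
  have key : ∀ k : ℕ, ∀ x ∈ H, (3 / 2 : ℝ) ^ k * ‖φ x - φ 1‖ ≤ 1 := by
    intro k
    induction k with
    | zero => intro x hx; simpa using (hH hx).2.1
    | succ k ih =>
      intro x hx
      have a1 := ih _ (mul_mem hx hx)
      have a2 := mul_le_mul_of_nonneg_left (hH hx).2.2 (show 0 ≤ (3 / 2 : ℝ) ^ k by positivity)
      rw [pow_succ, mul_assoc]
      linarith
  have h0 : ‖φ g - φ 1‖ ≤ 0 := by
    by_contra hc
    push Not at hc
    obtain ⟨k, hk⟩ := pow_unbounded_of_one_lt (1 / ‖φ g - φ 1‖) (show (1 : ℝ) < 3 / 2 by norm_num)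
    rw [div_lt_iff₀ hc] at hk
    linarith [key k g hg]
  exact φ.injOn (hH hg).1 h1 (sub_eq_zero.1 (norm_le_zero_iff.1 h0))

theorem polycyclic_of_discrete (hK : KolchinStmt.{u, u}) (G : SolvableLieGroup.{u})
    (Λ : Subgroup G.carrier) (hd : DiscreteTopology Λ) (hfg : Group.FG Λ) : IsPolycyclic Λ := by
  have : IsTopologicalGroup G.carrier := topologicalGroup_of_lieGroup (𝓡 G.n) ∞
  have : LocallyCompactSpace G.carrier :=
    ChartedSpace.locallyCompactSpace (EuclideanSpace ℝ (Fin G.n)) G.carrier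
  exact isPolycyclic_subgroup_iff.2
    (pcs_of_discrete hK (nss_of_lie (E := EuclideanSpace ℝ (Fin G.n))) Λ hfg)

end Vale.Agent.N188
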