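import Vale.Agent.N188.BuildC
import Vale.Agent.N188.LieC
import Vale.Agent.N188.Kolchin

/-!
Uniform lattices in connected solvable Lie groups are polycyclic.
-/

open scoped Manifold ContDiff

universe u v

namespace Vale.Agent.N188

open Vale.Agent.P188

theorem virtPoly_of_discrete (G : SolvableLieGroup.{v}) (Λ : Subgroup G.carrier)
    (hd : DiscreteTopology Λ) (hfg : Group.FG Λ) : IsVirtuallyPolycyclic Λ :=
  isVirtuallyPolycyclic_iff.2 ⟨⊤, inferInstance,
    isPolycyclic_iff.1 (polycyclic_of_discrete kolchin G Λ hd hfg)⟩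

theorem polycyclic_of_uniform (G : SolvableLieGroup.{v}) (Λ : Subgroup G.carrier)
    (h : IsUniformLattice Λ) : IsPolycyclic Λ := by
  have : IsTopologicalGroup G.carrier := topologicalGroup_of_lieGroup (𝓡 G.n) ∞
  have : LocallyCompactSpace G.carrier :=
    ChartedSpace.locallyCompactSpace (EuclideanSpace ℝ (Fin G.n)) G.carrier
  exact polycyclic_of_discrete kolchin G Λ h.1.1 (fgen G.carrier Λ h.1.1 h.2)

theorem virtPoly_of_lattice {H : Type u} [Group H] {H₀ : Subgroup H} (h₀ : H₀.FiniteIndex)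
    (G : SolvableLieGroup.{v}) (Λ : Subgroup G.carrier) (h : IsUniformLattice Λ)
    (e : H₀ ≃* Λ) : IsVirtuallyPolycyclic H := by
  refine ⟨H₀, h₀, isPolycyclic_iff.2 ?_⟩
  have := (isPolycyclic_iff.1 (polycyclic_of_uniform G Λ h)).comap_injective e.toMonoidHom
    e.injective
  rwa [Subgroup.comap_top] at this

end Vale.Agent.N188
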