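import Vale.Agent.P228Z.Ad

/-!
Closed subgroups of a group with an exponential map: their Lie algebras and identity components.
-/

set_option linter.unusedSectionVars false

namespace Vale.Agent.N188

open Vale.Agent.P228Z Vale.Agent.P228Z.GMap Topology Filter Set Metric

variable {G : Type*} [Group G] [TopologicalSpace G] [IsTopologicalGroup G] [T2Space G]
  {X : Type*} [NormedAddCommGroup X] [NormedSpace ℝ X] [CompleteSpace X] {Γ : GMap G X}
  {E : Type*} [NormedAddCommGroup E] [NormedSpace ℝ E] [FiniteDimensional ℝ E] [CompleteSpace E]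
  (D : EData Γ E)

theorem ex_pow (v : E) (t : ℝ) (n : ℕ) : D.ex ((n * t) • v) = D.ex (t • v) ^ n :=
  hom_pow (X := fun t : ℝ => D.ex (t • v)) (D.isOP_ex v).1 t n

theorem trot_mem {C : Set G} (hC : IsClosed C) (v w : E)
    (h : ∀ n : ℕ, 1 ≤ n → (D.ex ((1 / (n : ℝ)) • v) * D.ex ((1 / (n : ℝ)) • w)) ^ n ∈ C) :
    D.ex (v + w) ∈ C := by
  obtain ⟨k, hk⟩ := exists_nat_gt (‖v + w‖ + 1)
  have hk0 : (0 : ℝ) < k := by linarith [norm_nonneg (v + w)]
  have hk1 : 1 ≤ k := by exact_mod_cast hk0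
  have h1 : ‖(1 / (k : ℝ)) • v + (1 / (k : ℝ)) • w‖ ≤ 1 := by
    rw [← smul_add, norm_smul, Real.norm_eq_abs, abs_of_pos (by positivity), one_div,
      inv_mul_le_iff₀ hk0]
    linarith
  have h2 := (D.trotter _ _ h1).pow k
  rw [← smul_add, ← ex_pow, mul_one_div_cancel hk0.ne', one_smul] at h2
  refine hC.mem_of_tendsto h2 ?_
  filter_upwards [eventually_ge_atTop 1] with n hn
  have := h (n * k) (Nat.mul_pos hn hk1)
  rw [← pow_mul, smul_smul, smul_smul]
  have e : 1 / (n : ℝ) * (1 / (k : ℝ)) = 1 / ((n * k : ℕ) : ℝ) := by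
    push_cast; rw [one_div_mul_one_div]
  rwa [e]

/-- the Lie algebra of (the closure of) a subgroup -/
def LA (B : Subgroup G) : Submodule ℝ E where
  carrier := {v | ∀ t : ℝ, D.ex (t • v) ∈ B.topologicalClosure}
  zero_mem' := fun t => by rw [smul_zero, D.ex_zero]; exact one_mem _
  smul_mem' := fun c v hv t => by rw [smul_smul]; exact hv _
  add_mem' := fun {v w} hv hw t => by
    rw [smul_add]
    refine trot_mem D B.isClosed_topologicalClosure _ _ fun n _ => ?_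
    rw [smul_smul, smul_smul]
    exact pow_mem (mul_mem (hv _) (hw _)) n

theorem clos_eq {B : Subgroup G} (hB : IsClosed (B : Set G)) : B.topologicalClosure = B :=
  le_antisymm (B.topologicalClosure_minimal le_rfl hB) B.le_topologicalClosure

variable {D}

theorem mem_LA {B : Subgroup G} (hB : IsClosed (B : Set G)) {v : E} :
    v ∈ LA D B ↔ ∀ t : ℝ, D.ex (t • v) ∈ B := by
  show (∀ t : ℝ, D.ex (t • v) ∈ B.topologicalClosure) ↔ _
  rw [clos_eq hB]

theorem mem_LA_of {B : Subgroup G} {v : E} (h : ∀ t : ℝ, D.ex (t • v) ∈ B) : v ∈ LA D B :=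
  fun t => B.le_topologicalClosure (h t)

theorem LA_mono {B B' : Subgroup G} (h : B ≤ B') : LA D B ≤ LA D B' :=
  fun _ hv t => Subgroup.topologicalClosure_mono h (hv t)

variable (D) in
/-- the subgroup generated by the exponentials of the Lie algebra -/
def cc (B : Subgroup G) : Subgroup G := Subgroup.closure (D.ex '' (LA D B : Set E))

theorem ex_mem_cc {B : Subgroup G} {v : E} (hv : v ∈ LA D B) : D.ex v ∈ cc D B :=
  Subgroup.subset_closure ⟨v, hv, rfl⟩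

theorem cc_le {B : Subgroup G} (hB : IsClosed (B : Set G)) : cc D B ≤ B := by
  rw [cc, Subgroup.closure_le]
  rintro _ ⟨v, hv, rfl⟩
  simpa using (mem_LA hB).1 hv 1

theorem cc_mono {B B' : Subgroup G} (h : LA D B ≤ LA D B') : cc D B ≤ cc D B' :=
  Subgroup.closure_mono (image_mono h)

theorem LA_cc {B : Subgroup G} (hB : IsClosed (B : Set G)) : LA D (cc D B) = LA D B :=
  le_antisymm (LA_mono (cc_le hB))
    fun _ hv => mem_LA_of fun t => ex_mem_cc ((LA D B).smul_mem t hv)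

/-- The closed subgroup theorem. -/
theorem loc {B : Subgroup G} (hB : IsClosed (B : Set G)) :
    ∀ᶠ g in 𝓝 (1 : G), g ∈ B → D.lg g ∈ LA D B := by
  by_contra hc
  have hne : (𝓝 (1 : G) ⊓ 𝓟 {g | g ∈ B → D.lg g ∈ LA D B}ᶜ).NeBot := by
    rwa [← notMem_iff_inf_principal_compl]
  let 𝒰 := Ultrafilter.of (𝓝 (1 : G) ⊓ 𝓟 {g | g ∈ B → D.lg g ∈ LA D B}ᶜ)
  have hU := Ultrafilter.of_le (𝓝 (1 : G) ⊓ 𝓟 {g | g ∈ B → D.lg g ∈ LA D B}ᶜ)
  have hU1 : (𝒰 : Filter G) ≤ 𝓝 1 := hU.trans inf_le_left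
  have hU2 : ∀ᶠ g in (𝒰 : Filter G), g ∈ B ∧ D.lg g ∉ LA D B := by
    have : ∀ᶠ g in (𝒰 : Filter G), g ∈ {g | g ∈ B → D.lg g ∈ LA D B}ᶜ :=
      le_principal_iff.1 (hU.trans inf_le_right)
    filter_upwards [this] with g hg
    simpa using hg
  obtain ⟨m, hm⟩ := (LA D B).exists_isCompl
  let p : E →L[ℝ] E := LinearMap.toContinuousLinearMap ((LA D B).projection m hm)
  have hp1 : ∀ u, p u ∈ LA D B := fun u => Submodule.projection_apply_mem hm u
  have hp2 : ∀ u, u - p u ∈ m := fun u => by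
    rw [← Submodule.projection_apply_eq_zero_iff hm, map_sub,
      Submodule.projection_apply_of_mem_left hm (hp1 u)]
    exact sub_self _
  let v : G → E := fun g => p (D.lg g)
  let w : G → E := fun g => D.lg g - p (D.lg g)
  have hlg : Tendsto D.lg 𝒰 (𝓝 0) := by
    have := (D.lg_continuousAt D.one_mem).tendsto
    rw [D.lg_one] at this
    exact this.mono_left hU1
  have hv : Tendsto v 𝒰 (𝓝 0) := by
    have := (p.continuous.tendsto 0).comp hlg
    rwa [map_zero] at this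
  have hw : Tendsto w 𝒰 (𝓝 0) := by simpa using hlg.sub hv
  have hvn : Tendsto (fun g => ‖v g‖) 𝒰 (𝓝 0) := by simpa using hv.norm
  have hwn : Tendsto (fun g => ‖w g‖) 𝒰 (𝓝 0) := by simpa using hw.norm
  have hwp : ∀ᶠ g in (𝒰 : Filter G), 0 < ‖w g‖ := by
    filter_upwards [hU2] with g hg
    refine norm_pos_iff.2 fun h => hg.2 ?_
    rw [sub_eq_zero.1 h]; exact hp1 _
  have hlam : Tendsto (fun g => ‖w g‖⁻¹) 𝒰 atTop :=
    tendsto_inv_nhdsGT_zero.comp (tendsto_nhdsWithin_iff.2 ⟨hwn, hwp⟩)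
  let h : G → G := fun g => (D.ex (v g))⁻¹ * g
  have hest : ∀ᶠ g in (𝒰 : Filter G),
      ‖‖w g‖⁻¹ • Γ.io (h g) - D.j (‖w g‖⁻¹ • w g)‖ ≤ 2 * ‖v g‖ + ‖w g‖ := by
    filter_upwards [hwp, hvn.eventually (ge_mem_nhds (show (0 : ℝ) < 1 / 2 by norm_num)),
      hwn.eventually (ge_mem_nhds (show (0 : ℝ) < 1 / 2 by norm_num)),
      hU1 (D.isOpen_dom.mem_nhds D.one_mem)] with g h1 h2 h3 h4
    have a1 := D.ex_mul_est h2 h3
    have e : v g + w g = D.lg g := by simp [v, w]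
    rw [e, D.ex_lg h4] at a1
    have a2 := Γ.left (D.ex (v g)) (D.ex (w g)) (h g)
    have e2 : D.ex (v g) * h g = g := mul_inv_cancel_left _ _
    rw [e2] at a2
    have a3 := D.ex_sq (v := w g) (by linarith)
    have a4 := norm_sub_le_norm_sub_add_norm_sub (Γ.io (h g)) (Γ.io (D.ex (w g))) (D.j (w g))
    rw [norm_sub_rev (Γ.io (h g)) (Γ.io (D.ex (w g)))] at a4
    rw [map_smul, ← smul_sub, norm_smul, norm_inv, norm_norm, inv_mul_le_iff₀ h1]
    nlinarith
  have hn1 : ∀ᶠ g in (𝒰 : Filter G), ‖‖w g‖⁻¹ • w g‖ = 1 := by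
    filter_upwards [hwp] with g hg
    rw [norm_smul, norm_inv, norm_norm, inv_mul_cancel₀ hg.ne']
  have h0 : Tendsto (fun g => 2 * ‖v g‖ + ‖w g‖) 𝒰 (𝓝 0) := by
    simpa using (hvn.const_mul 2).add hwn
  have hK : ∀ᶠ g in (𝒰 : Filter G), ‖w g‖⁻¹ * ‖Γ.io (h g)‖ ≤ 2 := by
    filter_upwards [hest, hn1, h0.eventually (ge_mem_nhds (show (0 : ℝ) < 1 by norm_num))]
      with g h1 h2 h3
    have a1 := norm_sub_norm_le (‖w g‖⁻¹ • Γ.io (h g)) (D.j (‖w g‖⁻¹ • w g))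
    rw [D.j.norm_map, h2, norm_smul, norm_inv, norm_norm] at a1
    linarith
  obtain ⟨Y, u, hY, hlim, hu⟩ := Γ.exists_op 𝒰 h (fun g => ‖w g‖⁻¹) 2 hlam hK
  obtain ⟨W, rfl⟩ := D.surj Y u hY
  have hW : Tendsto (fun g => ‖w g‖⁻¹ • w g) 𝒰 (𝓝 W) := by
    have a1 : Tendsto (fun g => ‖w g‖⁻¹ • Γ.io (h g) - D.j (‖w g‖⁻¹ • w g)) 𝒰 (𝓝 0) :=
      squeeze_zero_norm' hest h0
    have a2 := hu.sub a1
    simp only [sub_sub_cancel, sub_zero] at a2
    rw [tendsto_iff_norm_sub_tendsto_zero] at a2 ⊢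
    simpa only [← map_sub, D.j.norm_map] using a2
  have hWm : W ∈ m := (Submodule.closed_of_finiteDimensional m).mem_of_tendsto hW
    (Eventually.of_forall fun g => m.smul_mem _ (hp2 _))
  have hWB : W ∈ LA D B := by
    refine mem_LA_of fun t => ?_
    rw [D.ex_eq hY]
    refine hB.mem_of_tendsto (hlim t) ?_
    filter_upwards [hU2] with g hg
    exact zpow_mem (mul_mem (inv_mem (cc_le hB (ex_mem_cc (hp1 _)))) hg.1) _
  have hW0 : W = 0 := (Submodule.disjoint_def.1 hm.disjoint) W hWB hWm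
  have hW1 : ‖W‖ = 1 := tendsto_nhds_unique hW.norm (tendsto_const_nhds.congr' (hn1.mono
    fun g hg => hg.symm))
  rw [hW0, norm_zero] at hW1
  exact zero_ne_one hW1

theorem loc_cc {B : Subgroup G} (hB : IsClosed (B : Set G)) :
    ∀ᶠ g in 𝓝 (1 : G), g ∈ B → g ∈ cc D B := by
  filter_upwards [loc (D := D) hB, D.isOpen_dom.mem_nhds D.one_mem] with g h1 h2 h3
  rw [← D.ex_lg h2]
  exact ex_mem_cc (h1 h3)

theorem near {B : Subgroup G} (hB : IsClosed (B : Set G)) (x : G) :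
    ∀ᶠ y in 𝓝 x, x⁻¹ * y ∈ B → x⁻¹ * y ∈ cc D B := by
  have : Tendsto (fun y => x⁻¹ * y) (𝓝 x) (𝓝 1) := by
    have hc : Continuous fun y : G => x⁻¹ * y := by fun_prop
    simpa using hc.tendsto x
  exact this.eventually (loc_cc hB)

theorem cc_closed {B : Subgroup G} (hB : IsClosed (B : Set G)) : IsClosed (cc D B : Set G) := by
  refine isClosed_of_closure_subset fun x hx => ?_
  have hxB : x ∈ B := hB.closure_subset_iff.2 (cc_le hB) hx
  obtain ⟨y, hy1, hy2⟩ := mem_closure_iff_nhds.1 hx _ (near (D := D) hB x)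
  have h1 := hy1 (mul_mem (inv_mem hxB) (cc_le hB hy2))
  have e : x = y * (x⁻¹ * y)⁻¹ := by group
  rw [e]
  exact mul_mem hy2 (inv_mem h1)

theorem preconn_le {B : Subgroup G} (hB : IsClosed (B : Set G)) {S : Set G}
    (hS : IsPreconnected S) (h1 : (1 : G) ∈ S) (hSB : S ⊆ B) : S ⊆ cc D B := by
  intro x hx
  by_contra hx'
  let O : Set G := interior {y | y ∈ B → y ∈ cc D B}
  have hO : ∀ y ∈ cc D B, y ∈ O := fun y hy => by
    refine mem_interior_iff_mem_nhds.2 ?_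
    filter_upwards [near (D := D) hB y] with z hz hzB
    have := mul_mem hy (hz (mul_mem (inv_mem (cc_le hB hy)) hzB))
    rwa [mul_inv_cancel_left] at this
  obtain ⟨z, hzS, hzO, hz⟩ := hS O (cc D B : Set G)ᶜ isOpen_interior (cc_closed hB).isOpen_compl
    (fun y _ => by
      by_cases hy : y ∈ cc D B
      · exact Or.inl (hO y hy)
      · exact Or.inr hy) ⟨1, h1, hO 1 (one_mem _)⟩ ⟨x, hx, hx'⟩
  exact hz (interior_subset hzO (hSB hzS))

theorem Ad_mem {B : Subgroup G} (hB : IsClosed (B : Set G)) {g : G}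
    (hg : ∀ x ∈ B, g * x * g⁻¹ ∈ B) {v : E} (hv : v ∈ LA D B) : D.Ad g v ∈ LA D B :=
  mem_LA_of fun t => by
    rw [D.ex_smul_Ad]
    exact hg _ ((mem_LA hB).1 hv t)

theorem Ad_mem' {B : Subgroup G} (hB : IsClosed (B : Set G)) {g : G} (hg : g ∈ B) {v : E}
    (hv : v ∈ LA D B) : D.Ad g v ∈ LA D B :=
  Ad_mem hB (fun _ hx => mul_mem (mul_mem hg hx) (inv_mem hg)) hv

theorem conj_cc {B : Subgroup G} {g : G} (hg : ∀ v ∈ LA D B, D.Ad g v ∈ LA D B) {x : G}
    (hx : x ∈ cc D B) : g * x * g⁻¹ ∈ cc D B := by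
  induction hx using Subgroup.closure_induction with
  | mem x hx =>
    obtain ⟨v, hv, rfl⟩ := hx
    rw [← D.ex_Ad]
    exact ex_mem_cc (hg v hv)
  | one => simp
  | mul x y _ _ hx hy =>
    have e : g * (x * y) * g⁻¹ = (g * x * g⁻¹) * (g * y * g⁻¹) := by group
    rw [e]; exact mul_mem hx hy
  | inv x _ hx =>
    have e : g * x⁻¹ * g⁻¹ = (g * x * g⁻¹)⁻¹ := by group
    rw [e]; exact inv_mem hx

theorem add_mem_LA {B : Subgroup G} (hB : IsClosed (B : Set G)) {u u' : E}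
    (h : ∀ s : ℝ, D.ex (s • u) * D.ex (s • u') ∈ B) : u + u' ∈ LA D B := by
  refine mem_LA_of fun t => ?_
  rw [smul_add]
  refine trot_mem D hB _ _ fun n _ => ?_
  rw [smul_smul, smul_smul]
  exact pow_mem (h _) n

theorem Ad_sub_mem {B : Subgroup G} (hB : IsClosed (B : Set G)) {g : G} {w : E}
    (h : ∀ s : ℝ, g * D.ex (s • w) * g⁻¹ * (D.ex (s • w))⁻¹ ∈ B) : D.Ad g w - w ∈ LA D B := by
  rw [sub_eq_add_neg]
  refine add_mem_LA hB fun s => ?_
  rw [D.ex_smul_Ad, smul_neg, D.ex_neg]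
  exact h s

theorem ex_add_mem {B : Subgroup G} (hB : IsClosed (B : Set G)) {v b : E}
    (hv : ∀ s : ℝ, ∀ u ∈ LA D B, D.Ad (D.ex (s • v)) u ∈ LA D B) (hb : b ∈ LA D B) :
    D.ex (v + b) * (D.ex v)⁻¹ ∈ cc D B := by
  have hC : IsClosed {x : G | x * (D.ex v)⁻¹ ∈ cc D B} :=
    (cc_closed hB).preimage (f := fun x : G => x * (D.ex v)⁻¹) (by fun_prop)
  refine trot_mem D hC v b fun n hn => ?_
  have hn0 : (n : ℝ) ≠ 0 := by exact_mod_cast (by omega : n ≠ 0)
  have key : ∀ k : ℕ, (D.ex ((1 / (n : ℝ)) • v) * D.ex ((1 / (n : ℝ)) • b)) ^ k *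
      (D.ex ((1 / (n : ℝ)) • v) ^ k)⁻¹ ∈ cc D B := by
    intro k
    induction k with
    | zero => simp
    | succ k ih =>
      have h1 := conj_cc (hv (1 / (n : ℝ)))
        (mul_mem (ex_mem_cc ((LA D B).smul_mem (1 / (n : ℝ)) hb)) ih)
      rw [pow_succ', pow_succ' (D.ex ((1 / (n : ℝ)) • v)), mul_inv_rev]
      simpa only [mul_assoc] using h1
  have h2 := key n
  rw [← ex_pow, mul_one_div_cancel hn0, one_smul] at h2
  exact h2

end Vale.Agent.N188
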