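import Vale.Agent.N188.LieA
import Vale.Agent.P188.H789.FG

/-!
Closed subgroups of a group acting unipotently on its Lie algebra have polycyclic component
groups.
-/

set_option linter.unusedSectionVars false

namespace Vale.Agent.N188

open Vale.Agent.P228Z Vale.Agent.P228Z.GMap Vale.Agent.P188 Topology Filter Set Metric

section RP

variable {G : Type*} [Group G]

/-- `M` is polycyclic modulo `N` -/
def RP (N M : Subgroup G) : Prop := ∀ K : Subgroup G, K ≤ M → PCS (K ⊓ N) → PCS K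

theorem RP.of_le {N M : Subgroup G} (h : M ≤ N) : RP N M := fun K hK h1 => by
  rwa [inf_eq_left.2 (hK.trans h)] at h1

theorem pcs_of_fg {Q : Type*} [Group Q] (hQ : ∀ x y : Q, x * y = y * x) (h : Group.FG Q) :
    PCS (⊤ : Subgroup Q) := by
  obtain ⟨S, hS⟩ := h.out
  exact H789.pcs_top_of_comm hQ S.finite_toSet hS

theorem RP.of_hom {H B N : Subgroup G} (hB : B ≤ H) {Q : Type*} [Group Q] (f : H →* Q)
    (hk : ∀ x : H, f x = 1 → (x : G) ∈ N) {S : Subgroup Q} (hS : PCS S)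
    (hBS : ∀ x : H, (x : G) ∈ B → f x ∈ S) : RP N B := by
  intro K hK h1
  let φ : K →* Q := f.comp (Subgroup.inclusion (hK.trans hB))
  have h2 : PCS φ.range := hS.le (by
    rintro _ ⟨x, rfl⟩
    exact hBS _ (hK x.2))
  have h3 : PCS (⊤ : Subgroup φ.range) := by
    have := h2.comap_injective φ.range.subtype φ.range.subtype_injective
    rwa [show φ.range.comap φ.range.subtype = ⊤ from Subgroup.subgroupOf_self _] at this
  have h4 : PCS φ.rangeRestrict.ker :=
    (h1.comap_injective K.subtype K.subtype_injective).le fun x hx => by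
      rw [MonoidHom.ker_rangeRestrict] at hx
      exact ⟨x.2, hk _ hx⟩
  have h5 := (PCS.comap_surjective φ.rangeRestrict φ.rangeRestrict_surjective h4 h3).map K.subtype
  rwa [Subgroup.comap_top, ← MonoidHom.range_eq_map, Subgroup.range_subtype] at h5

end RP

variable {G : Type*} [Group G] [TopologicalSpace G] [IsTopologicalGroup G] [T2Space G]
  {X : Type*} [NormedAddCommGroup X] [NormedSpace ℝ X] [CompleteSpace X] {Γ : GMap G X}
  {E : Type*} [NormedAddCommGroup E] [NormedSpace ℝ E] [FiniteDimensional ℝ E] [CompleteSpace E]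
  {D : EData Γ E}

theorem comm_ex {B : Subgroup G} (hB : IsClosed (B : Set G)) {g : G} {w : E}
    (hw : ∀ s : ℝ, ∀ u ∈ LA D B, D.Ad (D.ex (s • w)) u ∈ LA D B)
    (hg : D.Ad g w - w ∈ LA D B) : g * D.ex w * g⁻¹ * (D.ex w)⁻¹ ∈ cc D B := by
  have := ex_add_mem hB hw hg
  rwa [add_sub_cancel, D.ex_Ad] at this

/-- the abelian case -/
theorem abel_case {H B : Subgroup G} (hH : IsClosed (H : Set G)) (hB : IsClosed (B : Set G))
    (hBH : B ≤ H) (hc : H ≤ cc D H) (hN : ∀ g ∈ H, ∀ x ∈ B, g * x * g⁻¹ ∈ B)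
    (hA : ∀ g ∈ H, ∀ w ∈ LA D H, D.Ad g w - w ∈ LA D B) : RP (cc D B) B := by
  have hAd : ∀ g ∈ H, ∀ u ∈ LA D B, D.Ad g u ∈ LA D B := fun g hg u hu => Ad_mem hB (hN g hg) hu
  have hcj : ∀ g ∈ H, ∀ x ∈ cc D B, g * x * g⁻¹ ∈ cc D B := fun g hg x hx =>
    conj_cc (hAd g hg) hx
  have hexH : ∀ w ∈ LA D H, D.ex w ∈ H := fun w hw => cc_le hH (ex_mem_cc hw)
  have hcomm : ∀ g ∈ H, ∀ x ∈ cc D H, g * x * g⁻¹ * x⁻¹ ∈ cc D B := by
    intro g hg x hx
    induction hx using Subgroup.closure_induction with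
    | mem x hx =>
      obtain ⟨w, hw, rfl⟩ := hx
      exact comm_ex hB (fun s => hAd _ (hexH _ ((LA D H).smul_mem s hw))) (hA g hg w hw)
    | one => simp
    | mul x y hx0 _ hx hy =>
      have e : g * (x * y) * g⁻¹ * (x * y)⁻¹ =
          (g * x * g⁻¹ * x⁻¹) * (x * (g * y * g⁻¹ * y⁻¹) * x⁻¹) := by group
      rw [e]; exact mul_mem hx (hcj x (cc_le hH hx0) _ hy)
    | inv x hx0 hx =>
      have e : g * x⁻¹ * g⁻¹ * x⁻¹⁻¹ = x⁻¹ * (g * x * g⁻¹ * x⁻¹)⁻¹ * x⁻¹⁻¹ := by group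
      rw [e]; exact hcj _ (inv_mem (cc_le hH hx0)) _ (inv_mem hx)
  have hn : ((cc D B).subgroupOf H).Normal := ⟨fun x hx g => hcj g g.2 x hx⟩
  let π : H →* H ⧸ (cc D B).subgroupOf H := QuotientGroup.mk' _
  have hπ : ∀ x y : H, π x = π y ↔ (x : G)⁻¹ * y ∈ cc D B := fun x y => QuotientGroup.eq
  have hQ : ∀ x y : H ⧸ (cc D B).subgroupOf H, x * y = y * x := by
    intro x y
    obtain ⟨x, rfl⟩ := QuotientGroup.mk'_surjective _ x
    obtain ⟨y, rfl⟩ := QuotientGroup.mk'_surjective _ y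
    show π x * π y = π y * π x
    rw [← map_mul, ← map_mul, hπ]
    have := hcomm _ (inv_mem y.2) _ (inv_mem (hc x.2))
    simpa [mul_assoc] using this
  let e : LA D H → H := fun w => ⟨D.ex w, hexH w w.2⟩
  have hmul : ∀ w w' : LA D H, π (e (w + w')) = π (e w) * π (e w') := by
    intro w w'
    rw [← map_mul, eq_comm, hπ]
    have hC : IsClosed {x : G | (D.ex w * D.ex w')⁻¹ * x ∈ cc D B} :=
      (cc_closed hB).preimage (f := fun x : G => (D.ex w * D.ex w')⁻¹ * x) (by fun_prop)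
    refine trot_mem D hC (w : E) w' fun n hn => ?_
    have hn0 : (n : ℝ) ≠ 0 := by exact_mod_cast (by omega : n ≠ 0)
    have hp : ∀ u : LA D H, e ((1 / (n : ℝ)) • u) ^ n = e u := fun u => Subtype.ext (by
      show D.ex ((1 / (n : ℝ)) • (u : E)) ^ n = D.ex u
      rw [← ex_pow, mul_one_div_cancel hn0, one_smul])
    have h1 : π (e w * e w') = π ((e ((1 / (n : ℝ)) • w) * e ((1 / (n : ℝ)) • w')) ^ n) := by
      rw [map_pow, map_mul, map_mul, Commute.mul_pow (hQ _ _), ← map_pow, ← map_pow, hp, hp]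
    exact (hπ _ _).1 h1
  have hone : π (e 0) = 1 := by
    have : e 0 = 1 := Subtype.ext D.ex_zero
    rw [this, map_one]
  let ψ : Multiplicative (LA D H) →* H ⧸ (cc D B).subgroupOf H :=
    { toFun := fun w => π (e w.toAdd), map_one' := hone, map_mul' := fun w w' => hmul _ _ }
  have hsurj : ∀ x, ∀ hx : x ∈ cc D H, π ⟨x, cc_le hH hx⟩ ∈ ψ.range := by
    intro x hx
    induction hx using Subgroup.closure_induction with
    | mem x hx =>
      obtain ⟨w, hw, rfl⟩ := hx
      exact ⟨Multiplicative.ofAdd ⟨w, hw⟩, rfl⟩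
    | one => exact ⟨1, (map_one ψ).trans (map_one π).symm⟩
    | mul x y hx0 hy0 hx hy =>
      have := mul_mem hx hy
      rwa [← map_mul] at this
    | inv x hx0 hx =>
      have := inv_mem hx
      rwa [← map_inv] at this
  obtain ⟨m, hm⟩ := (LA D B).exists_isCompl
  let SB : Subgroup (H ⧸ (cc D B).subgroupOf H) := (B.subgroupOf H).map π
  have hSB : ∀ x : H, π x ∈ SB → (x : G) ∈ B := by
    rintro x ⟨y, hy, hxy⟩
    have h1 := mul_mem hy (show y⁻¹ * x ∈ B.subgroupOf H from cc_le hB ((hπ _ _).1 hxy))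
    rwa [mul_inv_cancel_left] at h1
  let Λ : AddSubgroup (LA D H) :=
    { carrier := {w | (w : E) ∈ m ∧ ψ (Multiplicative.ofAdd w) ∈ SB}
      zero_mem' := ⟨m.zero_mem, by rw [ofAdd_zero, map_one]; exact one_mem _⟩
      add_mem' := fun ha hb => ⟨m.add_mem ha.1 hb.1, by
        rw [ofAdd_add, map_mul]; exact mul_mem ha.2 hb.2⟩
      neg_mem' := fun ha => ⟨m.neg_mem ha.1, by
        rw [ofAdd_neg, map_inv]; exact inv_mem ha.2⟩ }
  have hsmall : ∀ᶠ w in 𝓝 (0 : E), w ∈ m → D.ex w ∈ B → w = 0 := by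
    have h1 : Tendsto D.ex (𝓝 0) (𝓝 1) := by
      have := (D.ex_continuousAt (w := 0) (by simp)).tendsto
      rwa [D.ex_zero] at this
    filter_upwards [h1.eventually (loc (D := D) hB),
      ball_mem_nhds (0 : E) (show (0 : ℝ) < 1 / 16 by norm_num)] with w h2 h3 h4 h5
    have h6 := h2 h5
    rw [D.lg_ex (mem_ball_zero_iff.1 h3)] at h6
    exact (Submodule.disjoint_def.1 hm.disjoint) w h6 h4
  have hdisc : DiscreteTopology (AddSubgroup.toIntSubmodule Λ) := by
    refine discreteTopology_of_isOpen_singleton_zero ?_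
    rw [isOpen_iff_mem_nhds]
    rintro _ rfl
    have h1 : Tendsto (fun w : AddSubgroup.toIntSubmodule Λ => ((w : LA D H) : E)) (𝓝 0)
        (𝓝 0) := (continuous_subtype_val.comp continuous_subtype_val).tendsto' _ _ rfl
    filter_upwards [h1.eventually hsmall] with w hw
    exact Subtype.ext (Subtype.ext (hw w.2.1 (hSB _ w.2.2)))
  have hfg : AddGroup.FG (AddSubgroup.toIntSubmodule Λ) :=
    Module.Finite.iff_addGroup_fg.1 inferInstance
  let ι : Multiplicative (AddSubgroup.toIntSubmodule Λ) →* Multiplicative (LA D H) :=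
    AddMonoidHom.toMultiplicative (AddSubgroup.toIntSubmodule Λ).subtype.toAddMonoidHom
  have hS := (pcs_of_fg (Q := Multiplicative (AddSubgroup.toIntSubmodule Λ)) mul_comm
    inferInstance).map (ψ.comp ι)
  refine RP.of_hom hBH π (fun x hx => ?_) hS fun x hx => ?_
  · have := (hπ 1 x).1 (by rw [hx, map_one])
    simpa using this
  · obtain ⟨w, hw⟩ := hsurj x (hc x.2)
    obtain ⟨b, hb, u, hu, hbu⟩ := Submodule.mem_sup.1
      (show (w.toAdd : E) ∈ LA D B ⊔ m by rw [hm.sup_eq_top]; trivial)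
    have hbH : b ∈ LA D H := LA_mono hBH hb
    have huH : u ∈ LA D H := by
      rw [eq_sub_of_add_eq' hbu]; exact (LA D H).sub_mem w.toAdd.2 hbH
    have h1 : π (e ⟨b, hbH⟩) = 1 := by
      rw [← map_one π, eq_comm, hπ]
      simpa using ex_mem_cc hb
    have h2 : ψ (Multiplicative.ofAdd ⟨u, huH⟩) = π x := by
      have h3 := hmul ⟨b, hbH⟩ ⟨u, huH⟩
      have h4 : (⟨b, hbH⟩ + ⟨u, huH⟩ : LA D H) = w.toAdd := Subtype.ext hbu
      rw [h1, one_mul, h4] at h3
      exact h3.symm.trans hw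
    exact ⟨Multiplicative.ofAdd ⟨⟨u, huH⟩, hu, by rw [h2]; exact ⟨x, hx, rfl⟩⟩, trivial, h2⟩

theorem deriv_mem (b : Submodule ℝ E) {f : ℝ → E} {f' : E} (hf : HasDerivAt f f' 0)
    (h : ∀ s, f s - f 0 ∈ b) : f' ∈ b := by
  rw [hasDerivAt_iff_tendsto_slope_zero] at hf
  refine (Submodule.closed_of_finiteDimensional b).mem_of_tendsto hf
    (Eventually.of_forall fun t => ?_)
  rw [zero_add]
  exact b.smul_mem _ (h t)

theorem exp_mem (b : Submodule ℝ E) {a : E →L[ℝ] E} (ha : ∀ u ∈ b, a u ∈ b) {u : E}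
    (hu : u ∈ b) : NormedSpace.exp a u ∈ b := by
  have h1 := (ContinuousLinearMap.apply ℝ E u).hasSum
    (NormedSpace.exp_series_hasSum_exp' (𝕂 := ℝ) a)
  refine (Submodule.closed_of_finiteDimensional b).mem_of_tendsto h1.tendsto_sum_nat
    (Eventually.of_forall fun n => b.sum_mem fun k _ => ?_)
  have h2 : ∀ k : ℕ, (a ^ k) u ∈ b := by
    intro k
    induction k with
    | zero => simpa using hu
    | succ k ih => rw [pow_succ']; exact ha _ ih
  exact b.smul_mem _ (h2 k)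

theorem ad_deriv (u v : E) : HasDerivAt (fun t : ℝ => D.Ad (D.ex (t • u)) v) (D.ad u v) 0 := by
  have := (D.ad0_deriv u).clm_apply (hasDerivAt_const (0 : ℝ) v)
  rw [map_zero, add_zero] at this
  exact this

theorem Ad_ex_self (v : E) (t : ℝ) : D.Ad (D.ex (t • v)) v = v := by
  refine D.eq_of_ex (Eventually.of_forall fun s => ?_)
  rw [D.ex_smul_Ad, ← D.ex_add_smul, add_comm, D.ex_add_smul, mul_inv_cancel_right]

theorem ad_anti (u v : E) : D.ad u v = -D.ad v u := by
  have h : ∀ w : E, D.ad w w = 0 := fun w => by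
    have h1 := ad_deriv (D := D) w w
    simp only [Ad_ex_self] at h1
    exact h1.unique (hasDerivAt_const _ _)
  have h2 := h (u + v)
  simp only [map_add, add_apply, h u, h v, zero_add, add_zero] at h2
  rw [eq_neg_iff_add_eq_zero]
  first | exact h2 | (rw [add_comm]; exact h2)

variable (D) in
/-- elements which normalise `B` and fix the vectors of `W` modulo the Lie algebra of `B` -/
def Fix (B : Subgroup G) (hB : IsClosed (B : Set G)) (W : Set E) : Subgroup G where
  carrier := {g | (∀ x ∈ B, g * x * g⁻¹ ∈ B ∧ g⁻¹ * x * g ∈ B) ∧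
    ∀ w ∈ W, D.Ad g w - w ∈ LA D B}
  one_mem' := ⟨fun x hx => by simpa using hx, fun w _ => by simp [D.Ad_one]⟩
  mul_mem' := fun {g h} hg hh => ⟨fun x hx => ⟨by
      simpa [mul_assoc] using (hg.1 _ (hh.1 x hx).1).1, by
      simpa [mul_assoc] using (hh.1 _ (hg.1 x hx).2).2⟩, fun w hw => by
    have h1 := (LA D B).add_mem (Ad_mem hB (fun x hx => (hg.1 x hx).1) (hh.2 w hw)) (hg.2 w hw)
    rw [D.Ad_mul]
    simpa using h1⟩
  inv_mem' := fun {g} hg => ⟨fun x hx => by simpa using (hg.1 x hx).symm, fun w hw => by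
    have h1 := (LA D B).neg_mem (Ad_mem hB (g := g⁻¹)
      (fun x hx => by simpa using (hg.1 x hx).2) (hg.2 w hw))
    have h2 : D.Ad g⁻¹ (D.Ad g w) = w := by
      rw [← mul_apply_eq_comp, ← D.Ad_mul, inv_mul_cancel, D.Ad_one]; rfl
    rwa [map_sub, h2, neg_sub] at h1⟩

theorem Fix_closed (B : Subgroup G) (hB : IsClosed (B : Set G)) (W : Set E) :
    IsClosed (Fix D B hB W : Set G) := by
  show IsClosed ({g : G | ∀ x ∈ B, g * x * g⁻¹ ∈ B ∧ g⁻¹ * x * g ∈ B} ∩
    {g : G | ∀ w ∈ W, D.Ad g w - w ∈ LA D B})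
  refine IsClosed.inter ?_ ?_
  · simp only [ofPred_forall]
    refine isClosed_iInter fun x => isClosed_iInter fun _ => IsClosed.inter ?_ ?_
    · exact hB.preimage (f := fun g : G => g * x * g⁻¹) (by fun_prop)
    · exact hB.preimage (f := fun g : G => g⁻¹ * x * g) (by fun_prop)
  · simp only [ofPred_forall]
    refine isClosed_iInter fun w => isClosed_iInter fun _ => ?_
    exact (Submodule.closed_of_finiteDimensional (LA D B)).preimage
      (f := fun g : G => D.Ad g w - w)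
      ((D.Ad_continuous.clm_apply continuous_const).sub continuous_const)

theorem nilp {U : Subgroup G} {F : ℕ → Submodule ℝ E} {m : ℕ} (h0 : F 0 = ⊥) (hm : F m = ⊤)
    (hF : ∀ i, ∀ g ∈ U, ∀ v ∈ F (i + 1), D.Ad g v - v ∈ F i) :
    ∀ (c : ℕ) (H B : Subgroup G), IsClosed (H : Set G) → IsClosed (B : Set G) → H ≤ U →
      H ≤ cc D H → B ≤ H → Module.finrank ℝ (LA D H) - Module.finrank ℝ (LA D B) ≤ c →
      RP (cc D B) B := by
  intro c
  induction c using Nat.strong_induction_on with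
  | _ c ih =>
  intro H B hH hB hHU hc hBH hrk
  by_cases hle : LA D H ≤ LA D B
  · exact RP.of_le (hBH.trans (hc.trans (cc_mono hle)))
  obtain ⟨v, hvH, hvB, hv⟩ : ∃ v ∈ LA D H, v ∉ LA D B ∧ ∀ g ∈ B, D.Ad g v - v ∈ LA D B := by
    by_contra hcon
    push Not at hcon
    have key : ∀ i, LA D H ⊓ (LA D B ⊔ F i) ≤ LA D B := by
      intro i
      induction i with
      | zero => rw [h0, sup_bot_eq]; exact inf_le_right
      | succ i ih =>
        rintro v ⟨hv1, hv2⟩
        by_contra hv3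
        obtain ⟨g, hg, hg'⟩ := hcon v hv1 hv3
        refine hg' (ih ⟨(LA D H).sub_mem (Ad_mem' hH (hBH hg) hv1) hv1, ?_⟩)
        obtain ⟨b, hb, f, hf, rfl⟩ := Submodule.mem_sup.1 hv2
        have e : D.Ad g (b + f) - (b + f) = (D.Ad g b - b) + (D.Ad g f - f) := by
          rw [map_add]; abel
        rw [e]
        exact Submodule.add_mem_sup ((LA D B).sub_mem (Ad_mem' hB hg hb) hb)
          (hF i g (hHU (hBH hg)) f hf)
    have := key m
    rw [hm, sup_top_eq, inf_top_eq] at this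
    exact hle this
  have had : ∀ u ∈ LA D B, D.ad v u ∈ LA D B := fun u hu => by
    rw [ad_anti]
    refine (LA D B).neg_mem (deriv_mem _ (ad_deriv u v) fun s => ?_)
    simpa [D.ex_zero, D.Ad_one] using hv _ ((mem_LA hB).1 hu s)
  have hAv : ∀ s : ℝ, ∀ u ∈ LA D B, D.Ad (D.ex (s • v)) u ∈ LA D B := fun s u hu => by
    rw [D.Ad_ex]
    refine exp_mem _ (fun u hu => ?_) hu
    rw [map_smul]
    exact (LA D B).smul_mem s (had u hu)
  have hcm : ∀ (g : G) (s : ℝ), D.Ad g v - v ∈ LA D B →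
      g * D.ex (s • v) * g⁻¹ * (D.ex (s • v))⁻¹ ∈ cc D B := fun g s hg =>
    comm_ex hB (fun t u hu => by rw [smul_smul]; exact hAv _ u hu)
      (by rw [map_smul, ← smul_sub]; exact (LA D B).smul_mem s hg)
  have hnv : ∀ s : ℝ, ∀ x ∈ B, D.ex (s • v) * x * (D.ex (s • v))⁻¹ ∈ B := fun s x hx => by
    have h1 := mul_mem (inv_mem (cc_le hB (hcm x s (hv x hx)))) hx
    simpa [mul_assoc] using h1
  have hnv' : ∀ s : ℝ, ∀ x ∈ B, D.ex (s • v) * x * (D.ex (s • v))⁻¹ ∈ B ∧
      (D.ex (s • v))⁻¹ * x * D.ex (s • v) ∈ B := fun s x hx => ⟨hnv s x hx, by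
    have := hnv (-s) x hx
    rwa [neg_smul, D.ex_neg, inv_inv] at this⟩
  let B' : Subgroup G :=
    (B ⊔ Subgroup.closure (range fun s : ℝ => D.ex (s • v))).topologicalClosure
  have hB' : IsClosed (B' : Set G) := Subgroup.isClosed_topologicalClosure _
  have hmin : ∀ S : Subgroup G, IsClosed (S : Set G) → B ≤ S → (∀ s : ℝ, D.ex (s • v) ∈ S) →
      B' ≤ S := fun S hS h1 h2 => Subgroup.topologicalClosure_minimal _
    (sup_le h1 ((Subgroup.closure_le _).2 (by rintro _ ⟨s, rfl⟩; exact h2 s))) hS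
  have hBB' : B ≤ B' := le_sup_left.trans (Subgroup.le_topologicalClosure _)
  have hvB' : v ∈ LA D B' := mem_LA_of fun s => Subgroup.le_topologicalClosure _
    (Subgroup.mem_sup_right (Subgroup.subset_closure ⟨s, rfl⟩))
  have hB'H : B' ≤ H := hmin H hH hBH ((mem_LA hH).1 hvH)
  have hlt : Module.finrank ℝ (LA D B) < Module.finrank ℝ (LA D B') :=
    Submodule.finrank_lt_finrank_of_lt (lt_of_le_of_ne (LA_mono hBB') fun h => hvB (h ▸ hvB'))
  have hle' : Module.finrank ℝ (LA D B') ≤ Module.finrank ℝ (LA D H) :=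
    Submodule.finrank_mono (LA_mono hB'H)
  rcases hle'.lt_or_eq with hlt' | heq
  · have h1 := ih (c - 1) (by omega) H B' hH hB' hHU hc hB'H (by omega)
    have hB1 : IsClosed ((B ⊓ cc D B' : Subgroup G) : Set G) := hB.inter (cc_closed hB')
    have hL1 : LA D (B ⊓ cc D B') = LA D B := le_antisymm (LA_mono inf_le_left) fun u hu =>
      mem_LA_of fun t => ⟨(mem_LA hB).1 hu t, ex_mem_cc ((LA D B').smul_mem t (LA_mono hBB' hu))⟩
    have h2 := ih (c - 1) (by omega) (cc D B') (B ⊓ cc D B') (cc_closed hB') hB1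
      ((cc_le hB').trans (hB'H.trans hHU)) (cc_mono (LA_cc hB').ge) inf_le_right
      (by rw [LA_cc hB', hL1]; omega)
    intro K hK hP
    refine h1 K (hK.trans hBB') (h2 _ (inf_le_inf_right _ hK) (hP.le ?_))
    exact inf_le_inf inf_le_left (cc_mono hL1.le)
  · have hL : LA D B' = LA D H := Submodule.eq_of_le_of_finrank_eq (LA_mono hB'H) heq
    have hHB' : H ≤ B' := hc.trans ((cc_mono hL.ge).trans (cc_le hB'))
    have hnB : ∀ g ∈ B, ∀ x ∈ B, g * x * g⁻¹ ∈ B ∧ g⁻¹ * x * g ∈ B := fun g hg x hx =>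
      ⟨mul_mem (mul_mem hg hx) (inv_mem hg), mul_mem (mul_mem (inv_mem hg) hx) hg⟩
    have h1 : H ≤ Fix D B hB {v} := hHB'.trans (hmin _ (Fix_closed _ _ _)
      (fun g hg => ⟨hnB g hg, fun w hw => by rw [mem_singleton_iff.1 hw]; exact hv g hg⟩)
      fun s => ⟨hnv' s, fun w hw => by
        rw [mem_singleton_iff.1 hw, Ad_ex_self, sub_self]; exact zero_mem _⟩)
    have h2 : H ≤ Fix D B hB (LA D H) := hHB'.trans (hmin _ (Fix_closed _ _ _)
      (fun g hg => ⟨hnB g hg, fun w hw => Ad_sub_mem hB fun s => by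
        have := mul_mem hg ((h1 ((mem_LA hH).1 hw s)).1 _ (inv_mem hg)).1
        simpa [mul_assoc] using this⟩)
      fun s => ⟨hnv' s, fun w hw => Ad_sub_mem hB fun t => by
        have := inv_mem (cc_le hB (hcm _ s ((h1 ((mem_LA hH).1 hw t)).2 v rfl)))
        simpa [mul_assoc] using this⟩)
    exact abel_case hH hB hBH hc (fun g hg x hx => ((h2 hg).1 x hx).1) fun g hg => (h2 hg).2

end Vale.Agent.N188
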